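import Vale.Agent.GroupAlg.Classes

/-!
Injectivity over group algebras of locally indicable groups is detected by the augmentation.
-/

open MonoidAlgebra

namespace Vale.Agent.GroupAlg

universe u v

variable {K : Type v} [Ring K]

/-- The augmentation of a group algebra. -/
noncomputable def aug (N : Type u) [Monoid N] : K[N] →+* K :=
  liftNCRingHom (RingHom.id K) (1 : N →* K) fun _ _ => Commute.one_right _

lemma aug_single {N : Type u} [Monoid N] (g : N) (r : K) : aug N (single g r) = r := by
  simp [aug, liftNCRingHom]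

section Int

/-- A Laurent polynomial fixed by the shift is zero. -/
lemma eq_zero_of_mul_one_sub (x : K[Multiplicative ℤ])
    (h : x * (1 - single (Multiplicative.ofAdd 1) 1) = 0) : x = 0 := by
  classical
  by_contra hx
  rw [mul_sub, mul_one, sub_eq_zero] at h
  have hne : x.coeff.support.Nonempty := Finsupp.support_nonempty_iff.2 (by simpa using hx)
  obtain ⟨D, hD, hmin⟩ := x.coeff.support.exists_min_image (fun g => Multiplicative.toAdd g) hne
  have hD' := Finsupp.mem_support_iff.1 hD
  have hc : (x * single (Multiplicative.ofAdd (1 : ℤ)) 1).coeff D = 0 := by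
    have hx2 : D = D * (Multiplicative.ofAdd (1 : ℤ))⁻¹ * Multiplicative.ofAdd 1 := by
      rw [inv_mul_cancel_right]
    rw [hx2, coeff_mul_single_eq_coeff_mul (D * (Multiplicative.ofAdd (1 : ℤ))⁻¹)
      (fun m' _ => ⟨mul_right_cancel, fun e => by rw [e]⟩), mul_one]
    by_contra hc
    have := hmin _ (Finsupp.mem_support_iff.2 hc)
    simp at this
  exact hD' (by rw [h]; exact hc)

/-- Laurent matrices that are injective at `1` are injective. -/
lemma laurent_injective {I : Type u} {J : Type u} [Fintype J] (a : I → J → K[Multiplicative ℤ])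
    (hinj : ∀ s : J → K, (∀ i, ∑ j, aug _ (a i j) * s j = 0) → s = 0) :
    ∀ (L : ℕ) (c : J → ℕ → K),
      (∀ i, ∑ j, a i j * ∑ d ∈ Finset.range L, single (Multiplicative.ofAdd (d : ℤ)) (c j d) = 0) →
      ∀ j, ∀ d < L, c j d = 0 := by
  intro L
  induction L with
  | zero => intro c _ j d hd; omega
  | succ L ih =>
    intro c hc
    set S : J → ℕ → K := fun j d => ∑ e ∈ Finset.range (d + 1), c j e with hS
    have htot : ∀ j, S j L = 0 := by
      have := hinj (fun j => S j L) fun i => by
        have h := congrArg (aug (K := K) (Multiplicative ℤ)) (hc i)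
        simpa only [map_sum, map_mul, map_zero, aug_single] using h
      exact fun j => congrFun this j
    have htel : ∀ (k : ℕ) (j : J),
        (∑ d ∈ Finset.range k, single (Multiplicative.ofAdd (d : ℤ)) (S j d)) *
          (1 - single (Multiplicative.ofAdd (1 : ℤ)) 1) =
        (∑ d ∈ Finset.range (k + 1), single (Multiplicative.ofAdd (d : ℤ)) (c j d)) -
          single (Multiplicative.ofAdd (k : ℤ)) (S j k) := by
      intro k j
      induction k with
      | zero => simp [hS]
      | succ k ihk =>
        rw [Finset.sum_range_succ, add_mul, ihk, Finset.sum_range_succ _ (k + 1), mul_sub, mul_one,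
          single_mul_single, mul_one, ← ofAdd_add]
        have hstep : S j (k + 1) = S j k + c j (k + 1) := Finset.sum_range_succ _ _
        rw [hstep, single_add]
        push_cast
        abel
    have h' : ∀ i, ∑ j, a i j *
        ∑ d ∈ Finset.range L, single (Multiplicative.ofAdd (d : ℤ)) (S j d) = 0 := fun i => by
      apply eq_zero_of_mul_one_sub
      rw [Finset.sum_mul, ← hc i]
      refine Finset.sum_congr rfl fun j _ => ?_
      rw [mul_assoc, htel, htot, single_zero, sub_zero]
    intro j d hd
    have hz : ∀ e, e ≤ L → S j e = 0 := fun e he => by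
      rcases Nat.lt_or_eq_of_le he with h | h
      · exact ih S h' j e h
      · exact h ▸ htot j
    cases d with
    | zero => simpa [hS] using hz 0 (Nat.zero_le L)
    | succ d =>
      have h1 := hz (d + 1) (by omega)
      rw [hS] at h1
      simp only at h1
      rw [Finset.sum_range_succ] at h1
      have h2 := hz d (by omega)
      rw [hS] at h2
      simp only at h2
      rwa [h2, zero_add] at h1

end Int

variable {N : Type u} [Group N]

/-- The total excess size of the supports. -/
noncomputable def excess {J : Type u} [Fintype J] (v : J → K[N]) : ℕ :=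
  ∑ j, ((v j).coeff.support.card - 1)

/-- The part of `y` supported on `p`. -/
noncomputable def cut (p : N → Prop) : K[N] →+ K[N] :=
  coeffAddEquiv.symm.toAddMonoidHom.comp
    ((open Classical in Finsupp.filterAddHom p).comp coeffAddEquiv.toAddMonoidHom)

omit [Group N] in
lemma coeff_cut (p : N → Prop) (y : K[N]) :
    (cut p y).coeff = (open Classical in y.coeff.filter p) := rfl

lemma cut_single (p : N → Prop) [DecidablePred p] (g : N) (r : K) :
    cut p (single g r) = if p g then single g r else 0 := by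
  classical
  ext n
  rw [coeff_cut, Finsupp.filter_apply, coeff_single]
  by_cases hn : g = n
  · subst hn
    by_cases h : p g <;> simp [h]
  · have h0 : (Finsupp.single g r) n = 0 := Finsupp.single_eq_of_ne (Ne.symm hn)
    split_ifs <;> simp [h0]

section Grade

variable (H : Subgroup N) (χ : H →* Multiplicative ℤ)

/-- The degree of an element, relative to the chosen representative of its coset. -/
noncomputable def grade (n : N) : Multiplicative ℤ :=
  χ ⟨(n : N ⧸ H).out⁻¹ * n, by rw [← QuotientGroup.eq]; simp⟩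

/-- The degree on `H`, extended by one. -/
noncomputable def gradeH (n : N) : Multiplicative ℤ :=
  open Classical in if h : n ∈ H then χ ⟨n, h⟩ else 1

lemma mk_mul_mem (n h : N) (hh : h ∈ H) : ((n * h : N) : N ⧸ H) = (n : N ⧸ H) := by
  rw [QuotientGroup.eq]
  simpa using hh

lemma grade_mul (n h : N) (hh : h ∈ H) : grade H χ (n * h) = grade H χ n * gradeH H χ h := by
  rw [gradeH, dif_pos hh, grade, grade, ← map_mul]
  congr 1
  apply Subtype.ext
  simp only [Subgroup.coe_mul, mk_mul_mem H n h hh, mul_assoc]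

/-- The component on the coset `C`, as a Laurent polynomial in the degree. -/
noncomputable def gradeMap (C : N ⧸ H) : K[N] →+ K[Multiplicative ℤ] :=
  (Finsupp.liftAddHom fun n : N =>
    (open Classical in if (n : N ⧸ H) = C then singleAddHom (grade H χ n) else 0)).comp
    coeffAddEquiv.toAddMonoidHom

lemma gradeMap_single [DecidableEq (N ⧸ H)] (C : N ⧸ H) (n : N) (r : K) :
    gradeMap H χ C (single n r) = if (n : N ⧸ H) = C then single (grade H χ n) r else 0 := by
  simp only [gradeMap, AddMonoidHom.coe_comp, Function.comp_apply, AddEquiv.toAddMonoidHom_eq_coe,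
    AddMonoidHom.coe_coe, coeffAddEquiv_apply, coeff_single, Finsupp.liftAddHom_apply_single]
  split_ifs <;> rfl

lemma cut_mul (C : N ⧸ H) (D : Multiplicative ℤ) (x y : K[N])
    (W : Finset (Multiplicative ℤ))
    (hy : ∀ n, y.coeff n ≠ 0 → n ∈ H ∧ gradeH H χ n ∈ W) :
    cut (fun n : N => (n : N ⧸ H) = C ∧ grade H χ n = D) (x * y) =
      ∑ d ∈ W, cut (fun n : N => (n : N ⧸ H) = C ∧ grade H χ n = D * d⁻¹) x *
        cut (fun n => gradeH H χ n = d) y := by
  classical
  induction x using MonoidAlgebra.induction_linear with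
  | zero => simp
  | add x x' hx hx' =>
    rw [add_mul, map_add, hx, hx', ← Finset.sum_add_distrib]
    exact Finset.sum_congr rfl fun d _ => by rw [map_add, add_mul]
  | single n r =>
    conv_lhs => rw [← sum_coeff_single y, Finsupp.sum, Finset.mul_sum, map_sum]
    conv_rhs => arg 2; ext d; rw [← sum_coeff_single y, Finsupp.sum, map_sum, Finset.mul_sum]
    rw [Finset.sum_comm]
    refine Finset.sum_congr rfl fun h hh => ?_
    obtain ⟨hH, hW⟩ := hy h (Finsupp.mem_support_iff.1 hh)
    rw [Finset.sum_eq_single (gradeH H χ h)]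
    · rw [single_mul_single, cut_single, cut_single, cut_single, if_pos (rfl : gradeH H χ h = _),
        mk_mul_mem H n h hH, grade_mul H χ n h hH]
      by_cases hC : (n : N ⧸ H) = C ∧ grade H χ n = D * (gradeH H χ h)⁻¹
      · rw [if_pos hC, if_pos ⟨hC.1, by rw [hC.2, inv_mul_cancel_right]⟩, single_mul_single]
      · rw [if_neg hC, if_neg (fun h' => hC ⟨h'.1, by rw [← h'.2, mul_inv_cancel_right]⟩),
          zero_mul]
    · intro d _ hne
      rw [cut_single (fun n => gradeH H χ n = d), if_neg (Ne.symm hne), mul_zero]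
    · exact fun h' => absurd hW h'

lemma coeff_gradeMap (C : N ⧸ H) (D : Multiplicative ℤ) (x : K[N]) :
    (gradeMap H χ C x).coeff D =
      aug N (cut (fun n : N => (n : N ⧸ H) = C ∧ grade H χ n = D) x) := by
  classical
  induction x using MonoidAlgebra.induction_linear with
  | zero => simp
  | add x y hx hy => rw [map_add, coeff_add, Finsupp.add_apply, hx, hy, map_add, map_add]
  | single n r =>
    rw [gradeMap_single, cut_single]
    by_cases hC : (n : N ⧸ H) = C
    · rw [if_pos hC, coeff_single, Finsupp.single_apply]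
      by_cases hD : grade H χ n = D
      · rw [if_pos hD, if_pos ⟨hC, hD⟩, aug_single]
      · rw [if_neg hD, if_neg (fun h => hD h.2), map_zero]
    · rw [if_neg hC, if_neg (fun h => hC h.1), map_zero, coeff_zero, Finsupp.zero_apply]

lemma sum_aug_gradeMap (x : K[N]) (T : Finset (N ⧸ H))
    (hT : ∀ n, x.coeff n ≠ 0 → (n : N ⧸ H) ∈ T) :
    ∑ C ∈ T, aug _ (gradeMap H χ C x) = aug N x := by
  classical
  conv_lhs => arg 2; ext C; rw [← sum_coeff_single x, Finsupp.sum, map_sum, map_sum]
  conv_rhs => rw [← sum_coeff_single x, Finsupp.sum, map_sum]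
  rw [Finset.sum_comm]
  refine Finset.sum_congr rfl fun n hn => ?_
  rw [Finset.sum_eq_single ((n : N ⧸ H))]
  · rw [gradeMap_single, if_pos rfl, aug_single, aug_single]
  · intro C _ hne
    rw [gradeMap_single, if_neg (Ne.symm hne), map_zero]
  · exact fun h => absurd (hT n (Finsupp.mem_support_iff.1 hn)) h

end Grade

/-- Splitting along a homomorphism to `ℤ`: the new data. -/
lemma split_step {I J : Type u} [Fintype J] (φ : I → J → K[N]) (v : J → K[N])
    (hinj : ∀ s : J → K, (∀ i, ∑ j, aug N (φ i j) * s j = 0) → s = 0)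
    (hv : ∀ i, ∑ j, φ i j * v j = 0)
    (H : Subgroup N) (χ : H →* Multiplicative ℤ)
    (hH : ∀ j n, (v j).coeff n ≠ 0 → n ∈ H) :
    ∃ (L : ℕ) (deg : ℕ → Multiplicative ℤ)
      (φ' : I × (N ⧸ H) × Multiplicative ℤ → J × Fin L → K[N]),
      Function.Injective (fun d : Fin L => deg d) ∧
      (∀ j n, (v j).coeff n ≠ 0 → ∃ d : Fin L, deg d = gradeH H χ n) ∧
      (∀ s : J × Fin L → K, (∀ r, ∑ p, aug N (φ' r p) * s p = 0) → s = 0) ∧
      ∀ r, ∑ p : J × Fin L, φ' r p * cut (fun n => gradeH H χ n = deg p.2) (v p.1) = 0 := by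
  classical
  let B : Finset ℤ := Finset.univ.biUnion fun j =>
    (v j).coeff.support.image fun n => Multiplicative.toAdd (gradeH H χ n)
  obtain ⟨M, hM⟩ : ∃ M : ℕ, ∀ b ∈ B, b.natAbs ≤ M :=
    ⟨B.sup Int.natAbs, fun b hb => Finset.le_sup hb⟩
  let L := 2 * M + 1
  let deg : ℕ → Multiplicative ℤ := fun d => Multiplicative.ofAdd ((d : ℤ) - M)
  have hdeginj : Function.Injective (fun d : Fin L => deg d) := fun a b h => by
    have h' : ((a : ℕ) : ℤ) - M = ((b : ℕ) : ℤ) - M := Multiplicative.ofAdd.injective h
    exact Fin.ext (by omega)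
  have hcover : ∀ j n, (v j).coeff n ≠ 0 → ∃ d : Fin L, deg d = gradeH H χ n := by
    intro j n hn
    have hb := hM (Multiplicative.toAdd (gradeH H χ n)) (Finset.mem_biUnion.2
      ⟨j, Finset.mem_univ _, Finset.mem_image_of_mem _ (Finsupp.mem_support_iff.2 hn)⟩)
    refine ⟨⟨(Multiplicative.toAdd (gradeH H χ n) + M).toNat, by omega⟩, ?_⟩
    apply Multiplicative.toAdd.injective
    simp only [deg, toAdd_ofAdd]
    omega
  refine ⟨L, deg, fun r p => cut (fun n : N => (n : N ⧸ H) = r.2.1 ∧
    grade H χ n = r.2.2 * (deg p.2)⁻¹) (φ r.1 p.1), hdeginj, hcover, ?_, ?_⟩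
  · intro s hs
    let a : I × (N ⧸ H) → J → K[Multiplicative ℤ] := fun r j => gradeMap H χ r.2 (φ r.1 j)
    have ha : ∀ t : J → K, (∀ r, ∑ j, aug _ (a r j) * t j = 0) → t = 0 := by
      intro t ht
      refine hinj t fun i => ?_
      let T : Finset (N ⧸ H) := Finset.univ.biUnion fun j =>
        (φ i j).coeff.support.image (QuotientGroup.mk : N → N ⧸ H)
      have h := Finset.sum_eq_zero (s := T) fun C _ => ht (i, C)
      rw [Finset.sum_comm] at h
      rw [← h]
      refine Finset.sum_congr rfl fun j _ => ?_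
      rw [← Finset.sum_mul, sum_aug_gradeMap H χ _ T fun n hn => Finset.mem_biUnion.2
        ⟨j, Finset.mem_univ _, Finset.mem_image_of_mem _ (Finsupp.mem_support_iff.2 hn)⟩]
    let c : J → ℕ → K := fun j d => if hd : d < L then s (j, ⟨d, hd⟩) else 0
    have key := laurent_injective a ha L c fun r => by
      apply coeff_injective
      ext D
      rw [coeff_sum, Finsupp.finsetSum_apply, coeff_zero, Finsupp.zero_apply]
      rw [← hs (r.1, r.2, D * Multiplicative.ofAdd (-(M : ℤ))), Fintype.sum_prod_type]
      refine Finset.sum_congr rfl fun j _ => ?_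
      rw [Finset.mul_sum, coeff_sum, Finsupp.finsetSum_apply, ← Fin.sum_univ_eq_sum_range
        (fun d => (a r j * single (Multiplicative.ofAdd (d : ℤ)) (c j d)).coeff D) L]
      refine Finset.sum_congr rfl fun d _ => ?_
      rw [coeff_mul_single_eq_coeff_mul (D * (Multiplicative.ofAdd ((d : ℕ) : ℤ))⁻¹)
        (fun m' _ => eq_mul_inv_iff_mul_eq.symm)]
      simp only [c, Fin.is_lt, ↓reduceDIte, Fin.eta, a]
      rw [coeff_gradeMap]
      congr 6
      funext n
      congr 2
      apply Multiplicative.toAdd.injective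
      simp only [deg, toAdd_mul, toAdd_inv, toAdd_ofAdd]
      omega
    funext ⟨j, d⟩
    simpa [c, d.2] using key j d d.2
  · rintro ⟨i, C, D⟩
    rw [← map_zero (cut (K := K) fun n : N => (n : N ⧸ H) = C ∧ grade H χ n = D), ← hv i,
      map_sum, Fintype.sum_prod_type]
    refine Finset.sum_congr rfl fun j _ => ?_
    rw [cut_mul H χ C D (φ i j) (v j) (Finset.univ.image fun d : Fin L => deg d) fun n hn =>
      ⟨hH j n hn, (hcover j n hn).elim fun d hd =>
        Finset.mem_image.2 ⟨d, Finset.mem_univ _, hd⟩⟩, Finset.sum_image fun x _ y _ h => hdeginj h]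

/-- The augmentation detects injectivity over group algebras of locally indicable groups. -/
theorem eq_zero_of_aug_injective (hN : LocallyIndicable N) :
    ∀ (m : ℕ) (I J : Type u) [Fintype J] (φ : I → J → K[N]) (v : J → K[N]),
      (∀ s : J → K, (∀ i, ∑ j, aug N (φ i j) * s j = 0) → s = 0) →
      (∀ i, ∑ j, φ i j * v j = 0) → excess v ≤ m → v = 0 := by
  classical
  intro m
  induction m using Nat.strong_induction_on with
  | _ m ih =>
  intro I J _ φ v hinj hv hm
  -- translate every nonzero entry so that its support contains one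
  have hg : ∀ j, ∃ g : N, v j = 0 ∨ (v j).coeff g ≠ 0 := fun j => by
    by_cases h : v j = 0
    · exact ⟨1, Or.inl h⟩
    · obtain ⟨g, hg⟩ := Finsupp.support_nonempty_iff.2 (mt coeff_eq_zero.1 h)
      exact ⟨g, Or.inr (Finsupp.mem_support_iff.1 hg)⟩
  choose g hg using hg
  set w : J → K[N] := fun j => single (g j)⁻¹ 1 * v j with hw
  set ψ : I → J → K[N] := fun i j => φ i j * single (g j) 1 with hψ
  have hcoef : ∀ j n, (w j).coeff n = (v j).coeff (g j * n) := fun j n => by
    simp only [hw]
    rw [coeff_single_mul_eq_mul_coeff (g j * n) (fun m' _ => inv_mul_eq_iff_eq_mul), one_mul]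
  have hback : ∀ j, v j = single (g j) 1 * w j := fun j => by
    rw [hw, ← mul_assoc, single_mul_single, mul_one, mul_inv_cancel, ← one_def, one_mul]
  suffices w = 0 by
    funext j
    rw [hback j, this, Pi.zero_apply, mul_zero]
  have hinj' : ∀ s : J → K, (∀ i, ∑ j, aug N (ψ i j) * s j = 0) → s = 0 := fun s hs =>
    hinj s fun i => by simpa [hψ, aug_single] using hs i
  have hv' : ∀ i, ∑ j, ψ i j * w j = 0 := fun i => by
    rw [← hv i]
    refine Finset.sum_congr rfl fun j _ => ?_
    rw [hback j, hψ, mul_assoc]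
  have hone : ∀ j, w j ≠ 0 → (w j).coeff 1 ≠ 0 := fun j hj => by
    rcases hg j with h | h
    · exact absurd (by simp [hw, h]) hj
    · rwa [hcoef, mul_one]
  have hcard : ∀ j, (w j).coeff.support.card ≤ (v j).coeff.support.card := fun j =>
    Finset.card_le_card_of_injOn (fun n => g j * n)
      (fun n hn => by simpa [hcoef] using hn) fun a _ b _ h => mul_left_cancel h
  have hmw : excess w ≤ m :=
    le_trans (Finset.sum_le_sum fun j _ => Nat.sub_le_sub_right (hcard j) 1) hm
  clear hm hv hinj hcard hback hcoef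
  let S : Finset N := Finset.univ.biUnion fun j => (w j).coeff.support
  let H := Subgroup.closure (S : Set N)
  have hS : ∀ j n, (w j).coeff n ≠ 0 → n ∈ S := fun j n hn =>
    Finset.mem_biUnion.2 ⟨j, Finset.mem_univ _, Finsupp.mem_support_iff.2 hn⟩
  by_cases hbot : H = ⊥
  · have hsing : ∀ j, w j = single 1 ((w j).coeff 1) := fun j => by
      ext n
      rw [coeff_single, Finsupp.single_apply]
      split_ifs with h
      · rw [h]
      · by_contra hn
        have : n ∈ H := Subgroup.subset_closure (hS j n hn)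
        rw [hbot, Subgroup.mem_bot] at this
        exact h this.symm
    have := hinj' (fun j => (w j).coeff 1) fun i => by
      have h := congrArg (aug (K := K) N) (hv' i)
      rw [map_sum, map_zero] at h
      rw [← h]
      refine Finset.sum_congr rfl fun j _ => ?_
      conv_rhs => rw [map_mul, hsing j, aug_single]
    funext j
    rw [hsing j, congrFun this j, Pi.zero_apply, single_zero, Pi.zero_apply]
  obtain ⟨χ, hχ⟩ := hN H ⟨S, rfl⟩ hbot
  have hmem : ∀ j n, (w j).coeff n ≠ 0 → n ∈ H := fun j n hn =>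
    Subgroup.subset_closure (hS j n hn)
  obtain ⟨L, deg, φ', hdeg, hcover, hinj'', hzero⟩ := split_step ψ w hinj' hv' H χ hmem
  -- some support meets two degrees
  obtain ⟨j₀, n₀, hn₀, hn₀'⟩ : ∃ j n, (w j).coeff n ≠ 0 ∧ gradeH H χ n ≠ 1 := by
    by_contra hall
    push Not at hall
    have hχ1 : ∀ (x : N) (hx : x ∈ H), χ ⟨x, hx⟩ = 1 := by
      intro x hx
      induction hx using Subgroup.closure_induction with
      | mem y hy =>
        obtain ⟨j, -, hj⟩ := Finset.mem_biUnion.1 hy
        have := hall j y (Finsupp.mem_support_iff.1 hj)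
        simpa only [gradeH, dif_pos (show y ∈ H from Subgroup.subset_closure hy)] using this
      | one => exact χ.map_one
      | mul x y hx hy hx' hy' => exact (χ.map_mul ⟨x, hx⟩ ⟨y, hy⟩).trans (by rw [hx', hy', one_mul])
      | inv x hx hx' => exact (χ.map_inv ⟨x, hx⟩).trans (by rw [hx', inv_one])
    obtain ⟨⟨x, hx⟩, hx1⟩ := hχ (Multiplicative.ofAdd 1)
    rw [hχ1 x hx] at hx1
    exact absurd (congrArg Multiplicative.toAdd hx1) (by simp)
  let u : J × Fin L → K[N] := fun p => cut (fun n => gradeH H χ n = deg p.2) (w p.1)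
  have hsupp : ∀ j (d : Fin L), (u (j, d)).coeff.support =
      (w j).coeff.support.filter fun n => gradeH H χ n = deg d := fun j d => by
    simp only [u, coeff_cut, Finsupp.support_filter]
    exact Finset.filter_congr_decidable _ _ _
  have hpart : ∀ j, ∑ d : Fin L, (u (j, d)).coeff.support.card = (w j).coeff.support.card := by
    intro j
    simp only [hsupp]
    rw [← Finset.card_biUnion fun a _ b _ hab => Finset.disjoint_filter.2
      fun n _ h1 h2 => hab (hdeg (h1.symm.trans h2))]
    congr 1
    ext n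
    simp only [Finset.mem_biUnion, Finset.mem_univ, true_and, Finset.mem_filter]
    exact ⟨fun ⟨d, h, _⟩ => h, fun h => by
      obtain ⟨d, hd⟩ := hcover j n (Finsupp.mem_support_iff.1 h)
      exact ⟨d, h, hd.symm⟩⟩
  have hle : ∀ j, ∑ d : Fin L, ((u (j, d)).coeff.support.card - 1) ≤
      (w j).coeff.support.card - 1 := by
    intro j
    by_cases hd : ∃ d : Fin L, (u (j, d)).coeff.support.card ≠ 0
    · obtain ⟨d, hd⟩ := hd
      rw [← hpart j, ← Finset.add_sum_erase _ _ (Finset.mem_univ d),
        ← Finset.add_sum_erase _ _ (Finset.mem_univ d)]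
      have : ∑ e ∈ Finset.univ.erase d, ((u (j, e)).coeff.support.card - 1) ≤
          ∑ e ∈ Finset.univ.erase d, (u (j, e)).coeff.support.card :=
        Finset.sum_le_sum fun e _ => Nat.sub_le _ 1
      omega
    · push Not at hd
      simp [hd]
  have hlt : ∑ d : Fin L, ((u (j₀, d)).coeff.support.card - 1) <
      (w j₀).coeff.support.card - 1 := by
    obtain ⟨d₁, hd₁⟩ := hcover j₀ n₀ hn₀
    obtain ⟨d₀, hd₀⟩ := hcover j₀ 1 (hone j₀ fun h => hn₀ (by rw [h]; simp))
    have hg1 : gradeH H χ 1 = 1 := by
      rw [gradeH, dif_pos (one_mem H)]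
      exact χ.map_one
    have hne : d₀ ≠ d₁ := fun h => hn₀' (by rw [← hd₁, ← h, hd₀, hg1])
    have h0 : 0 < (u (j₀, d₀)).coeff.support.card := by
      rw [hsupp]
      exact Finset.card_pos.2 ⟨1, Finset.mem_filter.2
        ⟨Finsupp.mem_support_iff.2 (hone j₀ fun h => hn₀ (by rw [h]; simp)), hd₀.symm⟩⟩
    have h1 : 0 < (u (j₀, d₁)).coeff.support.card := by
      rw [hsupp]
      exact Finset.card_pos.2 ⟨n₀, Finset.mem_filter.2
        ⟨Finsupp.mem_support_iff.2 hn₀, hd₁.symm⟩⟩
    have hd : d₁ ∈ Finset.univ.erase d₀ := Finset.mem_erase.2 ⟨hne.symm, Finset.mem_univ _⟩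
    rw [← hpart j₀, ← Finset.add_sum_erase _ _ (Finset.mem_univ d₀),
      ← Finset.add_sum_erase _ _ (Finset.mem_univ d₀), ← Finset.add_sum_erase _ _ hd,
      ← Finset.add_sum_erase _ _ hd]
    have : ∑ e ∈ (Finset.univ.erase d₀).erase d₁, ((u (j₀, e)).coeff.support.card - 1) ≤
        ∑ e ∈ (Finset.univ.erase d₀).erase d₁, (u (j₀, e)).coeff.support.card :=
      Finset.sum_le_sum fun e _ => Nat.sub_le _ 1
    omega
  have hexcess : excess u < m := lt_of_lt_of_le (by
    rw [excess, Fintype.sum_prod_type]
    exact Finset.sum_lt_sum (fun j _ => hle j) ⟨j₀, Finset.mem_univ _, hlt⟩) hmw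
  have hu := ih (excess u) hexcess _ _ φ' u hinj'' hzero le_rfl
  funext j
  ext n
  simp only [Pi.zero_apply, coeff_zero, Finsupp.zero_apply]
  by_contra hn
  obtain ⟨d, hd⟩ := hcover j n hn
  have h := congrArg (fun x : K[N] => x.coeff n) (congrFun hu (j, d))
  simp only [u, coeff_cut, Pi.zero_apply, coeff_zero, Finsupp.zero_apply] at h
  rw [Finsupp.filter_apply, if_pos hd.symm] at h
  exact hn h

end Vale.Agent.GroupAlg
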