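import Mathlib

/-!
Matrices over the augmentation ideal of a finite p-group in characteristic p are nilpotent.
-/

open MonoidAlgebra

namespace Vale.Agent.GroupAlg

universe u v

variable {K : Type*} [Ring K]

/-- Augmentations commute with maps of group algebras. -/
lemma augmentation_map {P P' : Type*} [Group P] [Group P'] (f : P →* P') (x : K[P]) :
    mapDomainRingHom K (1 : P' →* Unit) (mapDomainRingHom K f x) =
      mapDomainRingHom K (1 : P →* Unit) x := by
  induction x using MonoidAlgebra.induction_linear with
  | zero => simp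
  | add x y hx hy => rw [map_add, map_add, map_add, hx, hy]
  | single g r => simp [mapDomainRingHom]

/-- An element killed by `K[P] → K[P/Z]`, `Z` generated by the central `z`, is a multiple of
`z - 1`. -/
lemma exists_mul_sub_one {P : Type*} [Group P] [Finite P] (z : P)
    [(Subgroup.zpowers z).Normal] (x : K[P])
    (hx : mapDomainRingHom K (QuotientGroup.mk' (Subgroup.zpowers z)) x = 0) :
    ∃ y : K[P], x = y * (single z 1 - 1) := by
  classical
  set f := QuotientGroup.mk' (Subgroup.zpowers z)
  have hrep : ∀ g : P, ∃ k : ℕ, g = (f g).out * z ^ k := by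
    intro g
    have hmem : (f g).out⁻¹ * g ∈ Subgroup.zpowers z := by
      rw [← QuotientGroup.eq]
      simp [f]
    obtain ⟨k, hk⟩ := (mem_powers_iff_mem_zpowers (y := (f g).out⁻¹ * g) (x := z)).2 hmem
    exact ⟨k, by simp only at hk; rw [hk, mul_inv_cancel_left]⟩
  choose k hk using hrep
  refine ⟨∑ g ∈ x.coeff.support,
    single (f g).out (x.coeff g) * ∑ i ∈ Finset.range (k g), single z 1 ^ i, ?_⟩
  rw [Finset.sum_mul]
  have h1 : ∀ g, single (f g).out (x.coeff g) * (∑ i ∈ Finset.range (k g), single z 1 ^ i) *
      (single z 1 - 1) = single g (x.coeff g) - single (f g).out (x.coeff g) := by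
    intro g
    rw [mul_assoc, geom_sum_mul, mul_sub, mul_one, single_pow, one_pow, single_mul_single,
      mul_one, ← hk g]
  simp only [h1]
  rw [Finset.sum_sub_distrib]
  have h2 : ∑ g ∈ x.coeff.support, single (f g).out (x.coeff g) = (0 : K[P]) := by
    have := congrArg (fun y : K[P ⧸ Subgroup.zpowers z] => mapDomain Quotient.out y) hx
    simp only [mapDomain_zero] at this
    rw [← this]
    conv_rhs => rw [← sum_coeff_single x, Finsupp.sum, map_sum]
    have hsum : ∀ (s : Finset P) (u : P → K[P ⧸ Subgroup.zpowers z]),
        mapDomain Quotient.out (∑ g ∈ s, u g) = ∑ g ∈ s, mapDomain Quotient.out (u g) := by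
      intro s u
      induction s using Finset.induction_on with
      | empty => simp
      | insert a s ha ih => rw [Finset.sum_insert ha, Finset.sum_insert ha, mapDomain_add, ih]
    rw [hsum]
    exact Finset.sum_congr rfl fun g _ => by simp [mapDomainRingHom, f]
  rw [h2, sub_zero]
  conv_lhs => rw [← sum_coeff_single x]
  rfl

/-- In characteristic `p`, a matrix over the augmentation ideal of a finite p-group is nilpotent. -/
theorem isNilpotent_of_augmentation {p : ℕ} [Fact p.Prime] [CharP K p] :
    ∀ (N : ℕ) (P : Type u) [Group P] [Finite P], IsPGroup p P → Nat.card P ≤ N →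
      ∀ {J : Type v} [Fintype J] [DecidableEq J] (A : Matrix J J K[P]),
        A.map (mapDomainRingHom K (1 : P →* Unit)) = 0 → IsNilpotent A := by
  intro N
  induction N with
  | zero =>
    intro P _ _ _ hcard
    exact absurd hcard (by have := Nat.card_pos (α := P); omega)
  | succ N ih =>
    intro P _ _ hP hcard J _ _ A hA
    rcases subsingleton_or_nontrivial P with hs | hn
    · refine ⟨1, ?_⟩
      rw [pow_one]
      ext i j : 1
      have h : mapDomainRingHom K (1 : P →* Unit) (A i j) = 0 := congrFun (congrFun hA i) j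
      exact mapDomain_injective (f := (1 : P →* Unit))
        (fun a b _ => Subsingleton.elim a b) (by simpa [mapDomainRingHom] using h)
    have := hP.center_nontrivial
    obtain ⟨c, hc⟩ := exists_ne (1 : Subgroup.center P)
    obtain ⟨m, hm⟩ := hP (c : P)
    obtain ⟨z, hzc, hzo⟩ : ∃ z : P, z ∈ Subgroup.center P ∧ orderOf z = p := by
      obtain ⟨i, -, hi⟩ := (Nat.dvd_prime_pow (Fact.out : p.Prime)).1 (orderOf_dvd_of_pow_eq_one hm)
      have hi0 : i ≠ 0 := by
        rintro rfl
        rw [pow_zero, orderOf_eq_one_iff] at hi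
        exact hc (by ext; exact hi)
      refine ⟨(c : P) ^ p ^ (i - 1), Subgroup.pow_mem _ c.2 _, ?_⟩
      rw [orderOf_pow' _ (pow_ne_zero _ (Fact.out : p.Prime).ne_zero), hi,
        Nat.gcd_eq_right (pow_dvd_pow p (Nat.sub_le i 1)), Nat.pow_div (Nat.sub_le i 1)
          (Fact.out : p.Prime).pos, Nat.sub_sub_self (Nat.one_le_iff_ne_zero.2 hi0), pow_one]
    have hcomm : ∀ g : P, g * z = z * g := fun g => Subgroup.mem_center_iff.1 hzc g
    have hnormal : (Subgroup.zpowers z).Normal := ⟨fun n hn g => by
      obtain ⟨k, rfl⟩ := Subgroup.mem_zpowers_iff.1 hn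
      rw [Subgroup.mem_center_iff.1 (Subgroup.zpow_mem _ hzc k) g, mul_inv_cancel_right]
      exact hn⟩
    let f := QuotientGroup.mk' (Subgroup.zpowers z)
    have hlt : Nat.card (P ⧸ Subgroup.zpowers z) ≤ N := by
      have h := Subgroup.card_eq_card_quotient_mul_card_subgroup (Subgroup.zpowers z)
      rw [Nat.card_zpowers, hzo] at h
      have h1 := (Fact.out : p.Prime).two_le
      have h2 := Nat.card_pos (α := P ⧸ Subgroup.zpowers z)
      nlinarith
    have hA' : (A.map (mapDomainRingHom K f)).map
        (mapDomainRingHom K (1 : P ⧸ Subgroup.zpowers z →* Unit)) = 0 := by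
      rw [← hA]
      ext i j : 1
      simp only [Matrix.map_apply]
      exact augmentation_map f (A i j)
    obtain ⟨m', hm'⟩ := ih (P ⧸ Subgroup.zpowers z) (hP.to_quotient _) hlt _ hA'
    have hm'' : ((mapDomainRingHom K f).mapMatrix) (A ^ m') = 0 := by
      rw [map_pow]; exact hm'
    choose B hB using fun i j => exists_mul_sub_one z ((A ^ m') i j)
      (congrFun (congrFun hm'' i) j)
    set w : K[P] := single z 1 - 1 with hw
    have hcent : ∀ x : K[P], Commute x w := fun x =>
      ((single_commute (fun g => (hcomm g).symm) (fun r => Commute.one_left r) x).symm).sub_right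
        (Commute.one_right x)
    have hwp : w ^ p = 0 := by
      have : CharP K[P] p := charP_of_injective_ringHom
        (f := (singleOneRingHom : K →+* K[P])) (single_right_injective (m := (1 : P))) p
      rw [hw, sub_pow_char_of_commute _ (Commute.one_right _), one_pow, single_pow, one_pow,
        ← hzo, pow_orderOf_eq_one, ← one_def, sub_self]
    refine ⟨m' * p, ?_⟩
    have hprod : A ^ m' = Matrix.of B * Matrix.diagonal (fun _ : J => w) := by
      ext i j : 1
      rw [Matrix.mul_diagonal, hB i j]; rfl
    have hc2 : Commute (Matrix.of B) (Matrix.diagonal (fun _ : J => w)) := by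
      ext i j : 1
      rw [Matrix.mul_diagonal, Matrix.diagonal_mul]
      exact (hcent _).eq
    rw [pow_mul, hprod, hc2.mul_pow, Matrix.diagonal_pow]
    simp [Pi.pow_def, hwp]

end Vale.Agent.GroupAlg
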