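import Vale.Agent.GroupAlg.FreeExt
import Vale.Agent.GroupAlg.PGroup

/-!
Stable finiteness through kernels that are residually finite p-groups, and residually finite
quotients.
-/

open MonoidAlgebra

namespace Vale.Agent.GroupAlg

universe u v

variable {K : Type v} [Ring K]

section Coset

variable {G : Type u} [Group G] (N : Subgroup G) [N.Normal]

/-- The part of `g` in `N`, relative to the chosen representatives of the cosets. -/
noncomputable def npart (g : G) : N :=
  ⟨((g : G ⧸ N)).out⁻¹ * g, by rw [← QuotientGroup.eq]; simp⟩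

omit [N.Normal] in
lemma mk_mul_coe (g : G) (n : N) : ((g * n : G) : G ⧸ N) = (g : G ⧸ N) := by
  rw [QuotientGroup.eq]
  simp

lemma npart_mul (g : G) (n : N) : npart N (g * n) = npart N g * n := by
  apply Subtype.ext
  simp only [npart, mk_mul_coe, Subgroup.coe_mul, mul_assoc]

omit [N.Normal] in
lemma out_mul_npart (g : G) : (g : G ⧸ N).out * npart N g = g := by
  simp [npart]

variable {P : Type u} [Group P] (φ : N →* P)

/-- The component on the coset `q`, reduced along `φ`. -/
noncomputable def comp' (q : G ⧸ N) : K[G] →+ K[P] :=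
  (Finsupp.liftAddHom fun g : G =>
    (open Classical in if (g : G ⧸ N) = q then singleAddHom (φ (npart N g)) else 0)).comp
    coeffAddEquiv.toAddMonoidHom

omit [N.Normal] in
lemma comp'_single [DecidableEq (G ⧸ N)] (q : G ⧸ N) (g : G) (r : K) :
    comp' N φ q (single g r) = if (g : G ⧸ N) = q then single (φ (npart N g)) r else 0 := by
  simp only [comp', AddMonoidHom.coe_comp, Function.comp_apply, AddEquiv.toAddMonoidHom_eq_coe,
    AddMonoidHom.coe_coe, coeffAddEquiv_apply, coeff_single, Finsupp.liftAddHom_apply_single]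
  split_ifs <;> rfl

lemma comp'_mul_single (q : G ⧸ N) (x : K[G]) (n : N) (r : K) :
    comp' N φ q (x * single (n : G) r) = comp' N φ q x * single (φ n) r := by
  classical
  induction x using MonoidAlgebra.induction_linear with
  | zero => simp
  | add x y hx hy => rw [add_mul, map_add, map_add, hx, hy, add_mul]
  | single g t =>
    rw [single_mul_single, comp'_single, comp'_single, mk_mul_coe, npart_mul, map_mul]
    split_ifs
    · rw [single_mul_single]
    · rw [zero_mul]

lemma augmentation_comp' (q : G ⧸ N) (x : K[G]) :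
    mapDomainRingHom K (1 : P →* Unit) (comp' N φ q x) =
      single 1 ((psi (QuotientGroup.mk' N) x).coeff q) := by
  classical
  induction x using MonoidAlgebra.induction_linear with
  | zero => simp
  | add x y hx hy =>
    rw [map_add, map_add, hx, hy, map_add, coeff_add, Finsupp.add_apply, single_add]
  | single g r =>
    rw [psi_single, comp'_single, coeff_single, Finsupp.single_apply, QuotientGroup.mk'_apply]
    split_ifs <;> simp [mapDomainRingHom]

lemma comp'_mul (q : G ⧸ N) (b y : K[G]) (F : Finset (G ⧸ N))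
    (hy : ∀ g, y.coeff g ≠ 0 → (g : G ⧸ N) ∈ F) :
    comp' N φ q (b * y) =
      ∑ q' ∈ F, comp' N φ q (b * single q'.out 1) * comp' N φ q' y := by
  classical
  conv_lhs => rw [← sum_coeff_single y, Finsupp.sum, Finset.mul_sum, map_sum]
  conv_rhs => arg 2; ext q'; rw [← sum_coeff_single y, Finsupp.sum, map_sum, Finset.mul_sum]
  rw [Finset.sum_comm]
  refine Finset.sum_congr rfl fun g hg => ?_
  rw [Finset.sum_eq_single ((g : G ⧸ N))]
  · rw [comp'_single, if_pos rfl, ← comp'_mul_single, mul_assoc, single_mul_single, one_mul,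
      out_mul_npart]
  · intro q' _ hne
    rw [comp'_single, if_neg (Ne.symm hne), mul_zero]
  · intro h
    exact absurd (hy g (Finsupp.mem_support_iff.1 hg)) h

/-- An idempotent matrix in the kernel of `K[G] → K[G/N]` has all components zero. -/
lemma comp'_eq_zero {p : ℕ} [Fact p.Prime] [CharP K p] [Finite P] (hP : IsPGroup p P) {n : ℕ}
    (e : Matrix (Fin n) (Fin n) K[G]) (he : e * e = e)
    (hmap : e.map (psi (QuotientGroup.mk' N)) = 0) (q : G ⧸ N) (i k : Fin n) :
    comp' N φ q (e i k) = 0 := by
  classical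
  let F : Finset (G ⧸ N) := insert q
    (Finset.univ.biUnion fun j : Fin n => (e j k).coeff.support.image (QuotientGroup.mk : G → G ⧸ N))
  have hF : ∀ j g, (e j k).coeff g ≠ 0 → (g : G ⧸ N) ∈ F := fun j g hg =>
    Finset.mem_insert_of_mem (Finset.mem_biUnion.2
      ⟨j, Finset.mem_univ _, Finset.mem_image_of_mem _ (Finsupp.mem_support_iff.2 hg)⟩)
  let M : Matrix (Fin n × F) (Fin n × F) K[P] :=
    fun a c => comp' N φ a.2 (e a.1 c.1 * single (c.2 : G ⧸ N).out 1)
  let w : Fin n × F → K[P] := fun a => comp' N φ a.2 (e a.1 k)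
  have hw : M.mulVec w = w := by
    funext a
    have h1 : e a.1 k = ∑ j, e a.1 j * e j k := by
      rw [← Matrix.mul_apply, he]
    show ∑ c, M a c * w c = comp' N φ a.2 (e a.1 k)
    rw [h1, map_sum, Fintype.sum_prod_type]
    refine Finset.sum_congr rfl fun j _ => ?_
    rw [comp'_mul N φ _ _ _ F (hF j),
      ← Finset.sum_coe_sort F]
  have hM : M.map (mapDomainRingHom K (1 : P →* Unit)) = 0 := by
    ext a c : 1
    have h0 : psi (QuotientGroup.mk' N) (e a.1 c.1) = 0 := congrFun (congrFun hmap a.1) c.1
    show mapDomainRingHom K (1 : P →* Unit)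
      (comp' N φ a.2 (e a.1 c.1 * single (c.2 : G ⧸ N).out 1)) = 0
    rw [augmentation_comp', map_mul, h0, zero_mul, coeff_zero, Finsupp.zero_apply, single_zero]
  obtain ⟨m, hm⟩ := isNilpotent_of_augmentation (Nat.card P) P hP le_rfl M hM
  have hpow : ∀ l, (M ^ l).mulVec w = w := by
    intro l
    induction l with
    | zero => simp
    | succ l ih => rw [pow_succ, ← Matrix.mulVec_mulVec, hw, ih]
  have := hpow m
  rw [hm, Matrix.zero_mulVec] at this
  exact (congrFun this (i, ⟨q, Finset.mem_insert_self _ _⟩)).symm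

end Coset

/-- The kernel condition: finite p-group quotients separate the points of `N`. -/
theorem idempotent_eq_zero_of_residualP {G : Type u} [Group G] (N : Subgroup G) [N.Normal]
    {p : ℕ} [Fact p.Prime] [CharP K p]
    (hres : ∀ x : N, x ≠ 1 → ∃ M : Subgroup N, ∃ _ : M.Normal,
      Finite (N ⧸ M) ∧ IsPGroup p (N ⧸ M) ∧ x ∉ M)
    {n : ℕ} (e : Matrix (Fin n) (Fin n) K[G]) (he : e * e = e)
    (hmap : e.map (psi (QuotientGroup.mk' N)) = 0) : e = 0 := by
  classical
  ext i k g
  rw [Matrix.zero_apply, coeff_zero, Finsupp.zero_apply]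
  let X : Finset N :=
    (((e i k).coeff.support.image fun g' => (npart N g')⁻¹ * npart N g)).filter (· ≠ 1)
  choose M hMn hMf hMp hMx using fun x : X => hres x.1 (Finset.mem_filter.1 x.2).2
  let φ : N →* (∀ x : X, N ⧸ M x) := MonoidHom.pi fun x => QuotientGroup.mk' (M x)
  have hP : IsPGroup p (∀ x : X, N ⧸ M x) := by
    intro f
    choose l hl using fun x : X => hMp x (f x)
    refine ⟨∑ x, l x, funext fun x => ?_⟩
    obtain ⟨d, hd⟩ := pow_dvd_pow p (Finset.single_le_sum (fun y _ => Nat.zero_le (l y))
      (Finset.mem_univ x))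
    rw [Pi.pow_apply, hd, pow_mul, hl, one_pow]
    rfl
  have h0 := comp'_eq_zero N φ hP e he hmap (g : G ⧸ N) i k
  have hc : (comp' N φ (g : G ⧸ N) (e i k)).coeff (φ (npart N g)) = (e i k).coeff g := by
    conv_lhs => rw [← sum_coeff_single (e i k), Finsupp.sum, map_sum, coeff_sum,
      Finsupp.finsetSum_apply]
    rw [Finset.sum_eq_single g]
    · rw [comp'_single, if_pos rfl, coeff_single, Finsupp.single_eq_same]
    · intro g' hg' hne
      rw [comp'_single]
      split_ifs with hq
      · rw [coeff_single, Finsupp.single_apply, if_neg]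
        intro heq
        have hx : (npart N g')⁻¹ * npart N g ≠ 1 := by
          intro h1
          apply hne
          rw [← out_mul_npart N g', ← out_mul_npart N g, hq, inv_mul_eq_one.1 h1]
        have hX : (npart N g')⁻¹ * npart N g ∈ X :=
          Finset.mem_filter.2 ⟨Finset.mem_image_of_mem _ hg', hx⟩
        exact hMx ⟨_, hX⟩ (QuotientGroup.eq.1 (congrFun heq ⟨_, hX⟩))
      · simp
    · intro hg
      rw [Finsupp.notMem_support_iff.1 hg]
      simp
  rw [h0] at hc
  simpa using hc.symm

/-- Group algebras of residually finite groups over division rings are stably finite. -/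
theorem stablyFinite_of_residuallyFinite {D : Type v} [DivisionRing D] (H : Type u) [Group H]
    [Group.ResiduallyFinite H] : IsStablyFiniteRing (MonoidAlgebra D H) := by
  classical
  refine ⟨fun n => ⟨fun {a b} hab => ?_⟩⟩
  let X : Finset H := ((Finset.univ ×ˢ Finset.univ).biUnion fun ij : Fin n × Fin n =>
    ((b * a - 1) ij.1 ij.2).coeff.support)
  let Y : Finset H := ((X ×ˢ X).image fun gh => gh.1⁻¹ * gh.2).filter (· ≠ 1)
  choose M hM using fun y : Y =>
    Group.exists_finiteIndexNormalSubgroup_notMem (y.1 : H) (Finset.mem_filter.1 y.2).2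
  let φ : H →* (∀ y : Y, H ⧸ (M y).toSubgroup) :=
    MonoidHom.pi fun y => QuotientGroup.mk' (M y).toSubgroup
  have hinj : Set.InjOn φ X := by
    intro g hg h hh heq
    by_contra hne
    have hy : g⁻¹ * h ∈ Y := Finset.mem_filter.2
      ⟨Finset.mem_image.2 ⟨(g, h), Finset.mem_product.2 ⟨hg, hh⟩, rfl⟩,
        fun h1 => hne (inv_mul_eq_one.1 h1)⟩
    exact hM ⟨_, hy⟩ (QuotientGroup.eq.1 (congrFun heq ⟨_, hy⟩))
  let f := (mapDomainRingHom D φ).mapMatrix (m := Fin n)
  have : IsNoetherianRing (MonoidAlgebra D (∀ y : Y, H ⧸ (M y).toSubgroup)) :=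
    isNoetherian_of_tower D inferInstance
  have hba : f (b * a - 1) = 0 := by
    rw [map_sub, map_one, map_mul, sub_eq_zero]
    exact mul_eq_one_symm (by rw [← map_mul, hab, map_one])
  rw [← sub_eq_zero]
  ext i j g
  rw [Matrix.zero_apply, coeff_zero, Finsupp.zero_apply]
  have h0 : Finsupp.mapDomain φ ((b * a - 1) i j).coeff = 0 :=
    congrArg MonoidAlgebra.coeff (congrFun (congrFun hba i) j)
  have hsub : (((b * a - 1) i j).coeff.support : Set H) ⊆ X := fun x hx =>
    Finset.mem_biUnion.2 ⟨(i, j), Finset.mem_product.2 ⟨Finset.mem_univ _, Finset.mem_univ _⟩, hx⟩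
  have h1 : ((b * a - 1) i j).coeff = 0 :=
    Finsupp.mapDomain_injOn (X : Set H) hinj hsub (by simp) (by rw [h0, Finsupp.mapDomain_zero])
  rw [h1]; rfl

end Vale.Agent.GroupAlg
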