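import Vale.Agent.GroupAlg.FreeExt
import Vale.Agent.GroupAlg.ResidualP
import Vale.Agent.GroupAlg.LocInd

/-!
The absence of zero divisors lifts through central torsion-free abelian kernels.
-/

open MonoidAlgebra

namespace Vale.Agent.GroupAlg

universe u v

variable {K : Type v} [Ring K]

/-- Finitely many nontrivial elements of a finitely generated torsion-free abelian group are all
seen by one homomorphism to `ℤ`. -/
lemma exists_separating_hom {A : Type u} [AddCommGroup A] [Module.Finite ℤ A] [Module.Free ℤ A]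
    (D : Finset A) (hD : ∀ d ∈ D, d ≠ 0) : ∃ f : A →+ ℤ, ∀ d ∈ D, f d ≠ 0 := by
  classical
  let e : A ≃ₗ[ℤ] (Fin (Module.finrank ℤ A) → ℤ) := (Module.finBasis ℤ A).equivFun
  let P : A → Polynomial ℤ := fun d => ∑ i : Fin (Module.finrank ℤ A), Polynomial.monomial (i : ℕ) (e d i)
  have hP : ∀ d, d ≠ 0 → P d ≠ 0 := by
    intro d hd h
    apply hd
    apply e.injective
    funext i
    have := congrArg (fun p => Polynomial.coeff p (i : ℕ)) h
    simpa [P, Polynomial.coeff_monomial, Fin.val_inj] using this
  obtain ⟨M, hM⟩ : ∃ M : ℤ, M ∉ D.biUnion fun d => (P d).roots.toFinset :=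
    Infinite.exists_notMem_finset _
  refine ⟨∑ i : Fin (Module.finrank ℤ A), (M ^ (i : ℕ)) • (LinearMap.proj i ∘ₗ e.toLinearMap).toAddMonoidHom,
    fun d hd h => hM (Finset.mem_biUnion.2 ⟨d, hd, ?_⟩)⟩
  rw [Multiset.mem_toFinset, Polynomial.mem_roots (hP d (hD d hd))]
  simp only [Polynomial.IsRoot, P, Polynomial.eval_finsetSum, Polynomial.eval_monomial]
  rw [← h]
  simp [mul_comm]

/-- A Laurent polynomial as a shifted sum over a range. -/
lemma exists_range_repr {ι : Type u} (F : Finset ι) (A : ι → K[Multiplicative ℤ]) :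
    ∃ (L : ℕ) (w : Multiplicative ℤ) (c : ι → ℕ → K),
      ∀ i ∈ F, A i =
        (∑ d ∈ Finset.range L, single (Multiplicative.ofAdd (d : ℤ)) (c i d)) * single w 1 := by
  classical
  obtain ⟨M, hM⟩ : ∃ M : ℕ, ∀ i ∈ F, ∀ g ∈ (A i).coeff.support,
      (Multiplicative.toAdd g).natAbs ≤ M :=
    ⟨(F.biUnion fun i => (A i).coeff.support).sup fun g : Multiplicative ℤ => (Multiplicative.toAdd g).natAbs,
      fun i hi g hg => Finset.le_sup (f := fun g : Multiplicative ℤ => (Multiplicative.toAdd g).natAbs)
        (Finset.mem_biUnion.2 ⟨i, hi, hg⟩)⟩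
  refine ⟨2 * M + 1, Multiplicative.ofAdd (-(M : ℤ)),
    fun i d => (A i).coeff (Multiplicative.ofAdd ((d : ℤ) - M)), fun i hi => ?_⟩
  ext g
  rw [Finset.sum_mul, coeff_sum, Finsupp.finsetSum_apply]
  simp only [single_mul_single, mul_one, coeff_single, Finsupp.single_apply, ← ofAdd_add,
    ← sub_eq_add_neg]
  by_cases hg : (A i).coeff g = 0
  · rw [hg, Finset.sum_eq_zero]
    intro d _
    split_ifs with h
    · rw [h, hg]
    · rfl
  · have hb := hM i hi g (Finsupp.mem_support_iff.2 hg)
    rw [Finset.sum_eq_single ((Multiplicative.toAdd g + M).toNat)]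
    · rw [if_pos]
      · congr 1
        apply Multiplicative.toAdd.injective
        rw [toAdd_ofAdd]; omega
      · apply Multiplicative.toAdd.injective
        rw [toAdd_ofAdd]; omega
    · intro d _ hd
      rw [if_neg]
      intro h
      apply hd
      rw [← h, toAdd_ofAdd]; omega
    · intro h
      exact absurd (Finset.mem_range.2 (by omega)) h

/-- Laurent families with a twisted convolution: no zero divisors, from the value at `1`. -/
lemma twisted_laurent {Q : Type u} [Group Q] [NoZeroDivisors (MonoidAlgebra K Q)]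
    [DecidableEq Q] (Qa Qb : Finset Q) (T : Q → Q → Multiplicative ℤ) :
    ∀ (n L L' : ℕ) (c d : Q → ℕ → K), L + L' = n →
      (∀ r, ∑ x ∈ Qa, ∑ y ∈ Qb, (if x * y = r then
        (∑ e ∈ Finset.range L, single (Multiplicative.ofAdd (e : ℤ)) (c x e)) *
          (∑ e ∈ Finset.range L', single (Multiplicative.ofAdd (e : ℤ)) (d y e)) *
          single (T x y) 1 else 0) = 0) →
      (∀ x ∈ Qa, ∑ e ∈ Finset.range L, single (Multiplicative.ofAdd (e : ℤ)) (c x e) =
          (0 : K[Multiplicative ℤ])) ∨
        ∀ y ∈ Qb, ∑ e ∈ Finset.range L', single (Multiplicative.ofAdd (e : ℤ)) (d y e) =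
          (0 : K[Multiplicative ℤ]) := by
  intro n
  induction n using Nat.strong_induction_on with
  | _ n ih =>
  intro L L' c d hn heq
  rcases L with _ | L
  · left; intro x _; simp
  rcases L' with _ | L'
  · right; intro y _; simp
  set S : Q → ℕ → K := fun x k => ∑ e ∈ Finset.range (k + 1), c x e with hS
  set R : Q → ℕ → K := fun x k => ∑ e ∈ Finset.range (k + 1), d x e with hR
  have htel : ∀ (c : Q → ℕ → K) (k : ℕ) (x : Q),
      (∑ e ∈ Finset.range k, single (Multiplicative.ofAdd (e : ℤ))
          (∑ f ∈ Finset.range (e + 1), c x f)) *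
        (1 - single (Multiplicative.ofAdd (1 : ℤ)) 1) =
      (∑ e ∈ Finset.range (k + 1), single (Multiplicative.ofAdd (e : ℤ)) (c x e)) -
        single (Multiplicative.ofAdd (k : ℤ)) (∑ f ∈ Finset.range (k + 1), c x f) := by
    intro c k x
    induction k with
    | zero => simp
    | succ k ihk =>
      rw [Finset.sum_range_succ, add_mul, ihk, Finset.sum_range_succ _ (k + 1), mul_sub, mul_one,
        single_mul_single, mul_one, ← ofAdd_add, Finset.sum_range_succ (fun f => c x f) (k + 1),
        single_add]
      push_cast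
      abel
  have hcomm : ∀ z : K[Multiplicative ℤ],
      (1 - single (Multiplicative.ofAdd (1 : ℤ)) 1) * z =
        z * (1 - single (Multiplicative.ofAdd (1 : ℤ)) 1) := fun z => by
    rw [sub_mul, mul_sub, one_mul, mul_one,
      (single_commute (fun g => Commute.all _ g) (fun r => Commute.one_left r) z).eq]
  by_cases hc0 : ∀ x ∈ Qa, S x L = 0
  · have hstep : ∀ x ∈ Qa,
        ∑ e ∈ Finset.range (L + 1), single (Multiplicative.ofAdd (e : ℤ)) (c x e) =
          (∑ e ∈ Finset.range L, single (Multiplicative.ofAdd (e : ℤ)) (S x e)) *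
            (1 - single (Multiplicative.ofAdd (1 : ℤ)) 1) := fun x hx => by
      have h0 : ∑ f ∈ Finset.range (L + 1), c x f = 0 := hc0 x hx
      rw [show (∑ e ∈ Finset.range L, single (Multiplicative.ofAdd (e : ℤ)) (S x e)) *
            (1 - single (Multiplicative.ofAdd (1 : ℤ)) 1) = _ from htel c L x, h0, single_zero,
        sub_zero]
    rcases ih (L + (L' + 1)) (by omega) L (L' + 1) S d rfl (fun r => by
        apply eq_zero_of_mul_one_sub
        refine Eq.trans ?_ (heq r)
        rw [Finset.sum_mul]
        refine Finset.sum_congr rfl fun x hx => ?_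
        rw [Finset.sum_mul]
        refine Finset.sum_congr rfl fun y _ => ?_
        by_cases h : x * y = r
        · rw [if_pos h, if_pos h, hstep x hx]
          simp only [mul_assoc, hcomm]
        · rw [if_neg h, if_neg h, zero_mul]) with h | h
    · left; intro x hx; rw [hstep x hx, h x hx, zero_mul]
    · exact Or.inr h
  by_cases hd0 : ∀ y ∈ Qb, R y L' = 0
  · have hstep : ∀ y ∈ Qb,
        ∑ e ∈ Finset.range (L' + 1), single (Multiplicative.ofAdd (e : ℤ)) (d y e) =
          (∑ e ∈ Finset.range L', single (Multiplicative.ofAdd (e : ℤ)) (R y e)) *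
            (1 - single (Multiplicative.ofAdd (1 : ℤ)) 1) := fun y hy => by
      have h0 : ∑ f ∈ Finset.range (L' + 1), d y f = 0 := hd0 y hy
      rw [show (∑ e ∈ Finset.range L', single (Multiplicative.ofAdd (e : ℤ)) (R y e)) *
            (1 - single (Multiplicative.ofAdd (1 : ℤ)) 1) = _ from htel d L' y, h0, single_zero,
        sub_zero]
    rcases ih (L + 1 + L') (by omega) (L + 1) L' c R rfl (fun r => by
        apply eq_zero_of_mul_one_sub
        refine Eq.trans ?_ (heq r)
        rw [Finset.sum_mul]
        refine Finset.sum_congr rfl fun x _ => ?_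
        rw [Finset.sum_mul]
        refine Finset.sum_congr rfl fun y hy => ?_
        by_cases h : x * y = r
        · rw [if_pos h, if_pos h, hstep y hy]
          simp only [mul_assoc, hcomm]
        · rw [if_neg h, if_neg h, zero_mul]) with h | h
    · exact Or.inl h
    · right; intro y hy; rw [hstep y hy, h y hy, zero_mul]
  exfalso
  have hprod : (∑ x ∈ Qa, single x (S x L)) * (∑ y ∈ Qb, single y (R y L')) = (0 : K[Q]) := by
    rw [Finset.sum_mul]
    simp only [Finset.mul_sum, single_mul_single]
    apply coeff_injective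
    ext r
    simp only [coeff_sum, Finsupp.finsetSum_apply, coeff_single, Finsupp.single_apply, coeff_zero,
      Finsupp.zero_apply]
    have h := congrArg (aug (K := K) (Multiplicative ℤ)) (heq r)
    simp only [map_sum, map_zero, apply_ite (aug (K := K) (Multiplicative ℤ)), map_mul,
      aug_single, mul_one] at h
    exact h
  have key : ∀ (F : Finset Q) (f : Q → K), (∑ x ∈ F, single x (f x)) = (0 : K[Q]) →
      ∀ x ∈ F, f x = 0 := by
    intro F f hf x hx
    have h := congrArg (fun z : K[Q] => z.coeff x) hf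
    simpa [coeff_sum, Finsupp.finsetSum_apply, Finsupp.single_apply, hx] using h
  rcases mul_eq_zero.1 hprod with h | h
  · exact hc0 (key Qa _ h)
  · exact hd0 (key Qb _ h)

/-- The absence of zero divisors lifts through central torsion-free kernels. -/
theorem noZeroDivisors_of_central {G : Type u} [Group G] (N : Subgroup G) [N.Normal]
    [IsMulTorsionFree N] (hcen : ∀ n ∈ N, ∀ g : G, g * n = n * g)
    [NoZeroDivisors (MonoidAlgebra K (G ⧸ N))] : NoZeroDivisors (MonoidAlgebra K G) := by
  classical
  refine ⟨fun {a b} hab => ?_⟩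
  let Sa := a.coeff.support
  let Sb := b.coeff.support
  let π : G → G ⧸ N := QuotientGroup.mk
  let co : G ⧸ N → G ⧸ N → N := fun x y => npart N (x.out * y.out)
  let gens : Finset N := Sa.image (npart N) ∪ Sb.image (npart N) ∪
    ((Sa.image π) ×ˢ (Sb.image π)).image fun p => co p.1 p.2
  let N₀ : Subgroup N := Subgroup.closure (gens : Set N)
  let _ : CommGroup N₀ := { (inferInstance : Group N₀) with
    mul_comm := fun x y => Subtype.ext (Subtype.ext (hcen _ y.1.2 _)) }
  have : AddGroup.FG (Additive N₀) :=
    GroupFG.iff_add_fg.1 ((Group.fg_iff_subgroup_fg N₀).2 ⟨gens, rfl⟩)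
  have : Module.Finite ℤ (Additive N₀) := Module.Finite.iff_addGroup_fg.2 this
  have : Module.IsTorsionFree ℤ (Additive N₀) := inferInstance
  have : Module.Free ℤ (Additive N₀) := inferInstance
  have hmem : ∀ n ∈ gens, n ∈ N₀ := fun n hn => Subgroup.subset_closure hn
  -- separate the free parts
  let diffs : Finset N := ((Sa.image (npart N) ×ˢ Sa.image (npart N)) ∪
    (Sb.image (npart N) ×ˢ Sb.image (npart N))).image fun p => p.1⁻¹ * p.2
  let D : Finset (Additive N₀) := ((diffs.subtype (· ∈ N₀)).image Additive.ofMul).filter (· ≠ 0)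
  obtain ⟨f, hf⟩ := exists_separating_hom D fun d hd => (Finset.mem_filter.1 hd).2
  let χ : N → Multiplicative ℤ := fun n =>
    if h : n ∈ N₀ then Multiplicative.ofAdd (f (Additive.ofMul ⟨n, h⟩)) else 1
  have hχ : ∀ m n, m ∈ N₀ → n ∈ N₀ → χ (m * n) = χ m * χ n := fun m n hm hn => by
    simp only [χ, dif_pos hm, dif_pos hn, dif_pos (N₀.mul_mem hm hn)]
    rw [← ofAdd_add, ← map_add, ← ofMul_mul]; rfl
  let Ψ : G ⧸ N → K[G] →+ K[Multiplicative ℤ] := fun r =>
    (Finsupp.liftAddHom fun g : G =>
      if π g = r then singleAddHom (χ (npart N g)) else 0).comp coeffAddEquiv.toAddMonoidHom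
  have hΨ : ∀ r g s, Ψ r (single g s) = if π g = r then single (χ (npart N g)) s else 0 := by
    intro r g s
    simp only [Ψ, AddMonoidHom.coe_comp, Function.comp_apply, AddEquiv.toAddMonoidHom_eq_coe,
      AddMonoidHom.coe_coe, coeffAddEquiv_apply, coeff_single, Finsupp.liftAddHom_apply_single]
    split_ifs <;> rfl
  have hmulpart : ∀ g h, npart N (g * h) = co (π g) (π h) * (npart N g * npart N h) := by
    intro g h
    have h1 : g * h = ((π g).out * (π h).out) * ((npart N g : G) * npart N h) := by
      conv_lhs => rw [← out_mul_npart N g, ← out_mul_npart N h]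
      rw [mul_assoc (π g).out, mul_assoc (π g).out, ← mul_assoc (npart N g : G),
        ← hcen _ (npart N g).2 (π h).out, mul_assoc]
    rw [h1, show ((npart N g : G) * npart N h) = ((npart N g * npart N h : N) : G) from rfl,
      npart_mul]
  have hzero : ∀ (x : K[G]),
      (∀ r ∈ x.coeff.support.image π, Ψ r x = 0) →
      (∀ g ∈ x.coeff.support, npart N g ∈ gens) →
      (∀ g ∈ x.coeff.support, ∀ g' ∈ x.coeff.support,
        (npart N g)⁻¹ * npart N g' ∈ diffs) → x = 0 := by
    intro x hx hg hd
    ext g
    rw [coeff_zero, Finsupp.zero_apply]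
    by_contra hgx
    have hgs := Finsupp.mem_support_iff.2 hgx
    have h0 := congrArg (fun z : K[Multiplicative ℤ] => z.coeff (χ (npart N g)))
      (hx (π g) (Finset.mem_image_of_mem π hgs))
    apply hgx
    rw [← sum_coeff_single x, Finsupp.sum, map_sum] at h0
    simp only [coeff_sum, Finsupp.finsetSum_apply, coeff_zero, Finsupp.zero_apply] at h0
    rw [Finset.sum_eq_single g] at h0
    · rw [hΨ, if_pos rfl, coeff_single, Finsupp.single_eq_same] at h0
      exact h0
    · intro g' hg' hne
      rw [hΨ]
      split_ifs with hq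
      · rw [coeff_single, Finsupp.single_apply, if_neg]
        intro he
        have hm : (npart N g')⁻¹ * npart N g ∈ N₀ :=
          N₀.mul_mem (N₀.inv_mem (hmem _ (hg g' hg'))) (hmem _ (hg g hgs))
        have hne1 : (npart N g')⁻¹ * npart N g ≠ 1 := fun h1 =>
          hne (by
            rw [← out_mul_npart N g', ← out_mul_npart N g,
              show (g' : G ⧸ N) = (g : G ⧸ N) from hq, inv_mul_eq_one.1 h1])
        have hD : Additive.ofMul (⟨_, hm⟩ : N₀) ∈ D := by
          refine Finset.mem_filter.2 ⟨Finset.mem_image_of_mem _ (Finset.mem_subtype.2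
            (hd g' hg' g hgs)), fun h1 => hne1 ?_⟩
          exact congrArg Subtype.val (ofMul_eq_zero.1 h1)
        apply hf _ hD
        have h2 := hχ _ _ (N₀.inv_mem (hmem _ (hg g' hg'))) (hmem _ (hg g hgs))
        have h3 := hχ _ _ (N₀.inv_mem (hmem _ (hg g' hg'))) (hmem _ (hg g' hg'))
        rw [← he, ← h3, inv_mul_cancel] at h2
        simp only [χ, dif_pos hm, dif_pos N₀.one_mem] at h2
        have h4 := Multiplicative.ofAdd.injective h2
        rw [h4]
        exact map_zero f
      · simp
    · exact fun h => absurd hgs h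
  obtain ⟨L, wa, c, hc⟩ := exists_range_repr (Sa.image π) fun r => Ψ r a
  obtain ⟨L', wb, d, hd⟩ := exists_range_repr (Sb.image π) fun r => Ψ r b
  have heq : ∀ r, ∑ x ∈ Sa.image π, ∑ y ∈ Sb.image π,
      (if x * y = r then Ψ x a * Ψ y b * single (χ (co x y)) 1 else 0) = 0 := by
    intro r
    have h0 := congrArg (Ψ r) hab
    rw [map_zero] at h0
    refine Eq.trans ?_ h0
    conv_rhs => rw [← sum_coeff_single a, ← sum_coeff_single b, Finsupp.sum, Finsupp.sum,
      Finset.sum_mul_sum, map_sum]
    rw [← Finset.sum_fiberwise_of_maps_to (s := Sa) (t := Sa.image π)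
      (fun g hg => Finset.mem_image_of_mem π hg)]
    refine Finset.sum_congr rfl fun x hx => ?_
    conv_rhs => arg 2; ext g; rw [map_sum, ← Finset.sum_fiberwise_of_maps_to (s := Sb)
      (t := Sb.image π) (fun h hh => Finset.mem_image_of_mem π hh)]
    rw [Finset.sum_comm]
    refine Finset.sum_congr rfl fun y hy => ?_
    have hΨx : ∀ (z : K[G]) (q : G ⧸ N), Ψ q z = ∑ g ∈ z.coeff.support.filter (fun g => π g = q),
        single (χ (npart N g)) (z.coeff g) := fun z q => by
      conv_lhs => rw [← sum_coeff_single z, Finsupp.sum, map_sum]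
      rw [Finset.sum_filter]
      exact Finset.sum_congr rfl fun g _ => hΨ q g _
    split_ifs with hxy
    · rw [hΨx a, hΨx b, Finset.sum_mul_sum, Finset.sum_mul]
      refine Finset.sum_congr rfl fun g hg => ?_
      rw [Finset.sum_mul]
      refine Finset.sum_congr rfl fun h hh => ?_
      obtain ⟨hgS, hgx⟩ := Finset.mem_filter.1 hg
      obtain ⟨hhS, hhy⟩ := Finset.mem_filter.1 hh
      have hm1 : npart N g ∈ N₀ := hmem _ (Finset.mem_union_left _
        (Finset.mem_union_left _ (Finset.mem_image_of_mem _ hgS)))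
      have hm2 : npart N h ∈ N₀ := hmem _ (Finset.mem_union_left _
        (Finset.mem_union_right _ (Finset.mem_image_of_mem _ hhS)))
      have hm3 : co x y ∈ N₀ := hmem _ (Finset.mem_union_right _
        (Finset.mem_image.2 ⟨(x, y), Finset.mem_product.2 ⟨hx, hy⟩, rfl⟩))
      rw [single_mul_single, single_mul_single, single_mul_single, mul_one, hΨ, if_pos, hmulpart,
        hgx, hhy, hχ _ _ hm3 (N₀.mul_mem hm1 hm2), hχ _ _ hm1 hm2, mul_comm (χ (co x y))]
      rw [← hxy, ← hgx, ← hhy]
      rfl
    · symm
      refine Finset.sum_eq_zero fun g hg => Finset.sum_eq_zero fun h hh => ?_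
      obtain ⟨-, hgx⟩ := Finset.mem_filter.1 hg
      obtain ⟨-, hhy⟩ := Finset.mem_filter.1 hh
      rw [single_mul_single, hΨ, if_neg]
      exact fun e => hxy (by rw [← hgx, ← hhy]; exact e)
  have hcm : ∀ (z : K[Multiplicative ℤ]) (w : Multiplicative ℤ),
      single w 1 * z = z * single w 1 := fun z w =>
    (single_commute (fun g => Commute.all w g) (fun r => Commute.one_left r) z).eq
  rcases twisted_laurent (Sa.image π) (Sb.image π) (fun x y => wa * wb * χ (co x y))
    (L + L') L L' c d rfl (fun r => by
      refine Eq.trans ?_ (heq r)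
      refine Finset.sum_congr rfl fun x hx => Finset.sum_congr rfl fun y hy => ?_
      rw [hc x hx, hd y hy]
      split_ifs with h
      · rw [mul_assoc, mul_assoc, mul_assoc, mul_assoc, ← mul_assoc (single wa 1), hcm _ wa]
        simp only [mul_assoc, single_mul_single, mul_one]
        rw [mul_left_comm wa]
      · rfl) with h | h
  · left
    refine hzero a (fun r hr => by rw [hc r hr, h r hr, zero_mul])
      (fun g hg => Finset.mem_union_left _ (Finset.mem_union_left _ (Finset.mem_image_of_mem _ hg)))
      fun g hg g' hg' => Finset.mem_image.2 ⟨(_, _), Finset.mem_union_left _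
        (Finset.mem_product.2 ⟨Finset.mem_image_of_mem _ hg, Finset.mem_image_of_mem _ hg'⟩), rfl⟩
  · right
    refine hzero b (fun r hr => by rw [hd r hr, h r hr, zero_mul])
      (fun g hg => Finset.mem_union_left _ (Finset.mem_union_right _ (Finset.mem_image_of_mem _ hg)))
      fun g hg g' hg' => Finset.mem_image.2 ⟨(_, _), Finset.mem_union_right _
        (Finset.mem_product.2 ⟨Finset.mem_image_of_mem _ hg, Finset.mem_image_of_mem _ hg'⟩), rfl⟩

end Vale.Agent.GroupAlg
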