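import Mathlib

/-!
Two classes of groups used for extension theorems on group algebras.
-/

namespace Vale.Agent.GroupAlg

universe u

/-- Locally indicable: every nontrivial finitely generated subgroup maps onto `ℤ`. -/
def LocallyIndicable (N : Type u) [Group N] : Prop :=
  ∀ H : Subgroup N, H.FG → H ≠ ⊥ → ∃ f : H →* Multiplicative ℤ, Function.Surjective f

/-- Residually a finite `p`-group: finite p-group quotients separate nontrivial elements from one. -/
def ResiduallyFinitePGroup (p : ℕ) (N : Type u) [Group N] : Prop :=
  ∀ x : N, x ≠ 1 → ∃ M : Subgroup N, ∃ _ : M.Normal, Finite (N ⧸ M) ∧ IsPGroup p (N ⧸ M) ∧ x ∉ M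

end Vale.Agent.GroupAlg
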