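import Vale.Agent.GroupAlg.Fox

/-!
Descent: a family of vectors over K[G], stable under the shifted Fox derivatives and
lying in the kernel of K[G] → K[Q], consists of zero only.
-/

open MonoidAlgebra

namespace Vale.Agent.GroupAlg

variable {K : Type*} [Ring K] {G Q : Type*} [Group G] [Group Q]
variable {S : Type*} [DecidableEq S]

omit [DecidableEq S] in
/-- Free normal data: a surjection, an injection from a free group onto its kernel. -/
structure FreeKernel (π : G →* Q) (ι : FreeGroup S →* G) : Prop where
  surj : Function.Surjective π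
  inj : Function.Injective ι
  range_eq : ι.range = π.ker

/-- Coordinates for `G` as pairs of an element of `Q` and an element of the free group. -/
structure Coords (π : G →* Q) (ι : FreeGroup S →* G) where
  sec : Q → G
  part : G → FreeGroup S
  π_sec : ∀ q, π (sec q) = q
  sec_part : ∀ g, sec (π g) * ι (part g) = g
  part_mul : ∀ q w, part (sec q * ι w) = w
  π_ι : ∀ w, π (ι w) = 1

omit [DecidableEq S] in
lemma FreeKernel.coords {π : G →* Q} {ι : FreeGroup S →* G} (h : FreeKernel π ι) :
    Nonempty (Coords π ι) := by
  obtain ⟨sec, part, h1, h2, h3⟩ := exists_coord π ι h.surj h.inj h.range_eq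
  exact ⟨⟨sec, part, h1, h2, h3, fun w => by
    rw [← MonoidHom.mem_ker, ← h.range_eq]; exact ⟨w, rfl⟩⟩⟩

variable {π : G →* Q} {ι : FreeGroup S →* G} (C : Coords π ι)

/-- The map of group algebras induced by `π`. -/
noncomputable abbrev psi (π : G →* Q) : K[G] →+* K[Q] := mapDomainRingHom K π

omit [DecidableEq S] in
lemma psi_single (g : G) (r : K) : psi π (single g r) = single (π g) r := by
  simp [psi, mapDomainRingHom]

/-- The shifted Fox derivative in the coordinates `C`. -/
noncomputable def Coords.der (s : S) (b : Bool) : K[G] →+ K[G] := dExt π ι C.sec C.part s b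

lemma der_single (s : S) (b : Bool) (g : G) (r : K) :
    C.der s b (single g r) =
      single (C.sec (π g)) r * (fox ι s (C.part g) * single (ι (shiftElem s b)) 1) :=
  dExt_single ..

/-- Left linearity modulo the image in `K[Q]`. -/
lemma der_single_mul (s : S) (b : Bool) (h : G) (t : K) : ∃ L : K[Q] →+ K[G],
    ∀ v : K[G], C.der s b (single h t * v) = single h t * C.der s b v + L (psi π v) := by
  let Lf : Q → K →+ K[G] := fun q =>
    { toFun := fun r => single (C.sec (π h * q)) (t * r) *
        (fox ι s (C.part (h * C.sec q)) * single (ι (shiftElem s b)) 1)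
      map_zero' := by simp
      map_add' := fun r r' => by rw [mul_add, single_add, add_mul] }
  refine ⟨(Finsupp.liftAddHom Lf).comp coeffAddEquiv.toAddMonoidHom, fun v => ?_⟩
  induction v using MonoidAlgebra.induction_linear with
  | zero => simp
  | add x y hx hy =>
    rw [mul_add, map_add, hx, hy, map_add, mul_add, map_add, map_add]; abel
  | single g r =>
    have hq : π (h * C.sec (π g)) = π h * π g := by rw [map_mul, C.π_sec]
    have e1 : C.sec (π h * π g) * ι (C.part (h * C.sec (π g))) = h * C.sec (π g) := by
      rw [← hq]; exact C.sec_part _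
    have hpart : C.part (h * g) = C.part (h * C.sec (π g)) * C.part g := by
      conv_lhs => rw [← C.sec_part g, ← mul_assoc, ← e1, mul_assoc, ← map_mul ι]
      exact C.part_mul _ _
    rw [single_mul_single, der_single, der_single, psi_single, map_mul, hpart, fox_mul]
    simp only [Lf, AddMonoidHom.coe_comp, Function.comp_apply, AddEquiv.toAddMonoidHom_eq_coe,
      AddMonoidHom.coe_coe, coeffAddEquiv_apply, coeff_single, Finsupp.liftAddHom_apply_single,
      AddMonoidHom.coe_mk, ZeroHom.coe_mk]
    rw [add_mul, mul_add, add_comm]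
    congr 1
    rw [← mul_assoc, ← mul_assoc, ← mul_assoc, ← mul_assoc, single_mul_single, mul_one,
      single_mul_single, e1]

/-- On the kernel of `K[G] → K[Q]` the derivative commutes with left multiplication. -/
lemma der_mul (s : S) (b : Bool) (c v : K[G]) (hv : psi π v = 0) :
    C.der s b (c * v) = c * C.der s b v := by
  induction c using MonoidAlgebra.induction_linear with
  | zero => simp
  | add x y hx hy => rw [add_mul, map_add, hx, hy, add_mul]
  | single h t =>
    obtain ⟨L, hL⟩ := der_single_mul C s b h t
    rw [hL, hv, map_zero, add_zero]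

/-- All support points of `x` have their free part in `T`. -/
def SuppIn (T : Finset (List (S × Bool))) (x : K[G]) : Prop :=
  ∀ g, x.coeff g ≠ 0 → (C.part g).toWord ∈ T

lemma suppIn_single {T : Finset (List (S × Bool))} {q : Q} {E : List (S × Bool)}
    (hE : E ∈ T) (hred : FreeGroup.IsReduced E) (r : K) :
    SuppIn C T (single (C.sec q * ι (FreeGroup.mk E)) r) := by
  classical
  intro g hg
  by_cases h : C.sec q * ι (FreeGroup.mk E) = g
  · rw [← h, C.part_mul, FreeGroup.toWord_mk, hred.reduce_eq]; exact hE
  · exact absurd (by rw [coeff_single, Finsupp.single_apply, if_neg h]) hg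

variable {T : Finset (List (S × Bool))}
variable (hred : ∀ u ∈ T, FreeGroup.IsReduced u) (hpre : ∀ u ∈ T, ∀ A, A <+: u → A ∈ T)
variable {A₀ : List (S × Bool)} {s : S} {b : Bool} (hn : A₀ ++ [(s, b)] ∈ T)
variable (hmax : ∀ u ∈ T, u.length ≤ (A₀ ++ [(s, b)]).length)

include hred hpre hn hmax in
lemma fox_shift_word (q : Q) (r : K) (u : List (S × Bool)) (hu : u ∈ T) :
    SuppIn C (T.erase (A₀ ++ [(s, b)]))
        (single (C.sec q) r * (foxL ι s u * single (ι (shiftElem s b)) 1)) ∧
      ∀ q₀, (single (C.sec q) r * (foxL ι s u * single (ι (shiftElem s b)) 1)).coeff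
          (C.sec q₀ * ι (FreeGroup.mk A₀)) =
        (open Classical in
          if q = q₀ ∧ u = A₀ ++ [(s, b)] then (if b then r else -r) else 0) := by
  classical
  induction u using List.reverseRecOn with
  | nil => exact ⟨fun g hg => by simp [foxL] at hg, fun q₀ => by simp [foxL]⟩
  | append_singleton A a ih =>
    have hA : A ∈ T := hpre _ hu _ (List.prefix_append _ _)
    have hlen : A.length < (A₀ ++ [(s, b)]).length := by
      have := hmax _ hu; rw [List.length_append, List.length_singleton] at this; omega
    obtain ⟨ih1, ih2⟩ := ih hA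
    have hAne : A ≠ A₀ ++ [(s, b)] := fun h => by rw [h] at hlen; exact lt_irrefl _ hlen
    rw [foxL_snoc_shift, mul_add]
    by_cases has : a.1 = s
    swap
    · rw [if_neg has, mul_zero, add_zero]
      refine ⟨ih1, fun q₀ => ?_⟩
      rw [ih2, if_neg (fun h => hAne h.2), if_neg]
      rintro ⟨-, h⟩
      obtain ⟨-, h2⟩ := List.append_inj' h rfl
      simp only [List.cons.injEq, and_true] at h2
      exact has (by rw [h2])
    rw [if_pos has, single_mul_single]
    have hEmem : endPt b A a ∈ T.erase (A₀ ++ [(s, b)]) := by
      unfold endPt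
      split_ifs with hb
      · exact Finset.mem_erase.2 ⟨hAne, hA⟩
      · refine Finset.mem_erase.2 ⟨fun h => hb ?_, hu⟩
        obtain ⟨-, h2⟩ := List.append_inj' h rfl
        simp only [List.cons.injEq, and_true] at h2
        rw [h2]
    have hEred : FreeGroup.IsReduced (endPt b A a) := hred _ (Finset.mem_of_mem_erase hEmem)
    refine ⟨?_, ?_⟩
    · intro g hg
      by_cases h1 : (single (C.sec q) r * (foxL ι s A * single (ι (shiftElem s b)) 1)).coeff g = 0
      · refine suppIn_single C (q := q) hEmem hEred (r * if a.2 then 1 else -1) g ?_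
        simpa [coeff_add, h1] using hg
      · exact ih1 g h1
    · intro q₀
      rw [coeff_add, Finsupp.add_apply, ih2, if_neg (fun h => hAne h.2), zero_add, coeff_single,
        Finsupp.single_apply]
      have hkey : C.sec q * ι (FreeGroup.mk (endPt b A a)) = C.sec q₀ * ι (FreeGroup.mk A₀) ↔
          q = q₀ ∧ A ++ [a] = A₀ ++ [(s, b)] := by
        constructor
        · intro h
          have hq : q = q₀ := by
            have := congrArg π h
            simpa [map_mul, C.π_sec, C.π_ι] using this
          have hw : endPt b A a = A₀ := by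
            have h' := congrArg C.part h
            rw [C.part_mul, C.part_mul] at h'
            have h'' := congrArg FreeGroup.toWord h'
            rwa [FreeGroup.toWord_mk, FreeGroup.toWord_mk, hEred.reduce_eq,
              (hred _ (hpre _ hn _ (List.prefix_append _ _))).reduce_eq] at h''
          refine ⟨hq, ?_⟩
          unfold endPt at hw
          split_ifs at hw with hb
          · rw [hw]; congr 2; exact Prod.ext has hb
          · exfalso
            have hn' := hred _ hn
            rw [← hw, List.append_assoc] at hn'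
            have h3 : FreeGroup.IsReduced [a, (s, b)] :=
              List.IsChain.right_of_append (l₁ := A) hn'
            simp only [FreeGroup.isReduced_cons_cons] at h3
            exact hb (h3.1 has)
        · rintro ⟨hq, h⟩
          obtain ⟨h1, h2⟩ := List.append_inj' h rfl
          simp only [List.cons.injEq, and_true] at h2
          rw [hq, h1, h2, endPt, if_pos rfl]
      by_cases hc : q = q₀ ∧ A ++ [a] = A₀ ++ [(s, b)]
      · rw [if_pos (hkey.2 hc), if_pos hc]
        obtain ⟨-, h2⟩ := List.append_inj' hc.2 rfl
        simp only [List.cons.injEq, and_true] at h2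
        subst h2
        cases b <;> simp
      · rw [if_neg (fun h => hc (hkey.1 h)), if_neg hc]

include hred hpre hn hmax in
lemma suppIn_der (x : K[G]) (hx : SuppIn C T x) :
    SuppIn C (T.erase (A₀ ++ [(s, b)])) (C.der s b x) ∧
      ∀ q₀, (C.der s b x).coeff (C.sec q₀ * ι (FreeGroup.mk A₀)) =
        (if b then x.coeff (C.sec q₀ * ι (FreeGroup.mk (A₀ ++ [(s, b)])))
          else -x.coeff (C.sec q₀ * ι (FreeGroup.mk (A₀ ++ [(s, b)])))) := by
  classical
  have hsum : C.der s b x = ∑ g ∈ x.coeff.support,
      single (C.sec (π g)) (x.coeff g) *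
        (foxL ι s (C.part g).toWord * single (ι (shiftElem s b)) 1) := by
    conv_lhs => rw [← sum_coeff_single x, Finsupp.sum, map_sum]
    exact Finset.sum_congr rfl fun g _ => by rw [der_single, fox_toWord]
  refine ⟨?_, fun q₀ => ?_⟩
  · intro g hg
    rw [hsum, coeff_sum, Finsupp.finsetSum_apply] at hg
    obtain ⟨g', hg', hne⟩ := Finset.exists_ne_zero_of_sum_ne_zero hg
    exact (fox_shift_word C hred hpre hn hmax _ _ _ (hx g' (Finsupp.mem_support_iff.1 hg'))).1 g hne
  · rw [hsum, coeff_sum, Finsupp.finsetSum_apply]
    set g₁ := C.sec q₀ * ι (FreeGroup.mk (A₀ ++ [(s, b)])) with hg₁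
    rw [Finset.sum_eq_single g₁]
    · by_cases h0 : x.coeff g₁ = 0
      · simp [h0]
      · rw [(fox_shift_word C hred hpre hn hmax _ _ _ (hx g₁ h0)).2, if_pos]
        refine ⟨by rw [hg₁, map_mul, C.π_sec, C.π_ι, mul_one], ?_⟩
        rw [hg₁, C.part_mul, FreeGroup.toWord_mk, (hred _ hn).reduce_eq]
    · intro g hg hne
      rw [(fox_shift_word C hred hpre hn hmax _ _ _ (hx g (Finsupp.mem_support_iff.1 hg))).2,
        if_neg]
      rintro ⟨h1, h2⟩
      exact hne (by rw [hg₁, ← h1, ← h2, FreeGroup.mk_toWord, C.sec_part])
    · intro h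
      rw [Finsupp.notMem_support_iff.1 h]
      simp

/-- **Descent.** A predicate on vectors that is stable under all shifted derivatives and only
holds of vectors killed by `K[G] → K[Q]` only holds of the zero vector. -/
theorem descent {J : Type*} [Finite J] (h : FreeKernel π ι) (P : (J → K[G]) → Prop)
    (hder : ∀ (C : Coords π ι) v, P v → ∀ s b, P fun j => C.der s b (v j))
    (hψ : ∀ v, P v → ∀ j, psi π (v j) = 0) : ∀ v, P v → v = 0 := by
  classical
  have := Fintype.ofFinite J
  obtain ⟨C⟩ := h.coords
  suffices main : ∀ (N : ℕ) (T : Finset (List (S × Bool))), T.card ≤ N →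
      (∀ u ∈ T, FreeGroup.IsReduced u) → (∀ u ∈ T, ∀ A, A <+: u → A ∈ T) →
      ∀ v, P v → (∀ j, SuppIn C T (v j)) → v = 0 by
    intro v hv
    let W : Finset (List (S × Bool)) := Finset.univ.biUnion fun j : J =>
      (v j).coeff.support.biUnion fun g => (C.part g).toWord.inits.toFinset
    have hW : ∀ u ∈ W, ∃ w : FreeGroup S, u <+: w.toWord := by
      intro u hu
      simp only [W, Finset.mem_biUnion, List.mem_toFinset, List.mem_inits] at hu
      obtain ⟨j, -, g, -, hu⟩ := hu
      exact ⟨_, hu⟩
    refine main W.card W le_rfl (fun u hu => ?_) (fun u hu A hA => ?_) v hv fun j g hg => ?_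
    · obtain ⟨w, hw⟩ := hW u hu
      obtain ⟨t, ht⟩ := hw
      exact List.IsChain.left_of_append (l₂ := t) (ht ▸ FreeGroup.isReduced_toWord)
    · simp only [W, Finset.mem_biUnion, List.mem_toFinset, List.mem_inits] at hu ⊢
      obtain ⟨j, hj, g, hg, hu⟩ := hu
      exact ⟨j, hj, g, hg, hA.trans hu⟩
    · simp only [W, Finset.mem_biUnion, List.mem_toFinset, List.mem_inits]
      exact ⟨j, Finset.mem_univ _, g, Finsupp.mem_support_iff.2 hg, List.prefix_rfl⟩
  intro N
  induction N with
  | zero =>
    intro T hT _ _ v _ hsupp
    funext j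
    ext g
    by_contra hg
    have := hsupp j g (by simpa using hg)
    rw [Finset.card_eq_zero.1 (Nat.le_zero.1 hT)] at this
    simp at this
  | succ N ih =>
    intro T hT hred hpre v hv hsupp
    rcases T.eq_empty_or_nonempty with rfl | hne
    · exact ih ∅ (by simp) hred hpre v hv hsupp
    obtain ⟨n, hn, hmax⟩ := T.exists_max_image List.length hne
    have hcard : (T.erase n).card ≤ N := by rw [Finset.card_erase_of_mem hn]; omega
    have hred' : ∀ u ∈ T.erase n, FreeGroup.IsReduced u :=
      fun u hu => hred u (Finset.mem_of_mem_erase hu)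
    have hpre' : ∀ u ∈ T.erase n, ∀ A, A <+: u → A ∈ T.erase n := by
      intro u hu A hA
      refine Finset.mem_erase.2 ⟨?_, hpre u (Finset.mem_of_mem_erase hu) A hA⟩
      rintro rfl
      exact (Finset.mem_erase.1 hu).1
        (hA.eq_of_length (le_antisymm hA.length_le (hmax u (Finset.mem_of_mem_erase hu)))).symm
    rcases List.eq_nil_or_concat n with rfl | ⟨A₀, ⟨s, b⟩, rfl⟩
    · -- `T` contains only the empty word
      funext j
      have hT1 : ∀ g, (v j).coeff g ≠ 0 → C.sec (π g) = g := by
        intro g hg
        have h0 : (C.part g).toWord = [] :=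
          List.length_eq_zero_iff.1 (Nat.le_zero.1 (by simpa using hmax _ (hsupp j g hg)))
        rw [FreeGroup.toWord_eq_nil_iff] at h0
        simpa [h0] using C.sec_part g
      have h0 : (psi π (v j)).coeff.mapDomain C.sec = (0 : G →₀ K) := by
        rw [hψ v hv j]; simp
      have h1 : (psi π (v j)).coeff = (v j).coeff.mapDomain π := rfl
      rw [h1, ← Finsupp.mapDomain_comp] at h0
      rw [Pi.zero_apply, ← coeff_eq_zero, ← h0]
      conv_lhs => rw [← Finsupp.mapDomain_id (v := (v j).coeff)]
      exact Finsupp.mapDomain_congr fun g hg => (hT1 g (Finsupp.mem_support_iff.1 hg)).symm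
    rw [List.concat_eq_append] at *
    have hd := fun j => suppIn_der C hred hpre hn hmax (v j) (hsupp j)
    by_cases hz : ∀ j q, (v j).coeff (C.sec q * ι (FreeGroup.mk (A₀ ++ [(s, b)]))) = 0
    · refine ih _ hcard hred' hpre' v hv fun j g hg => Finset.mem_erase.2 ⟨?_, hsupp j g hg⟩
      intro hw
      apply hg
      have := hz j (π g)
      rwa [← hw, FreeGroup.mk_toWord, C.sec_part] at this
    · exfalso
      push Not at hz
      obtain ⟨j, q, hjq⟩ := hz
      have h0 := ih _ hcard hred' hpre' _ (hder C v hv s b) fun j => (hd j).1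
      have h1 := (hd j).2 q
      rw [show C.der s b (v j) = 0 from congrFun h0 j] at h1
      cases b <;> simp at h1 <;>
        first | exact hjq h1 | exact hjq h1.symm

end Vale.Agent.GroupAlg
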