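import Mathlib

/-!
Fox derivatives relative to a normal free subgroup, and a descent lemma for the
kernel of the map of group algebras K[G] → K[Q].
-/

open MonoidAlgebra

namespace Vale.Agent.GroupAlg

variable {K : Type*} [Ring K] {G Q : Type*} [Group G] [Group Q]
variable {S : Type*} [DecidableEq S]

/-- The value of the Fox derivative in `s` on one letter. -/
noncomputable def eLetter (ι : FreeGroup S →* G) (s : S) (a : S × Bool) : K[G] :=
  if a.1 = s then (if a.2 then 1 else - single (ι (FreeGroup.mk [a])) 1) else 0

/-- The Fox derivative in `s` on an arbitrary word. -/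
noncomputable def foxL (ι : FreeGroup S →* G) (s : S) : List (S × Bool) → K[G]
  | [] => 0
  | a :: L => eLetter ι s a + single (ι (FreeGroup.mk [a])) 1 * foxL ι s L

omit [DecidableEq S] in
lemma mk_cons (a : S × Bool) (L : List (S × Bool)) :
    FreeGroup.mk (a :: L) = FreeGroup.mk [a] * FreeGroup.mk L := by
  rw [FreeGroup.mul_mk]; rfl

lemma foxL_append (ι : FreeGroup S →* G) (s : S) (L M : List (S × Bool)) :
    foxL (K := K) ι s (L ++ M) = foxL ι s L + single (ι (FreeGroup.mk L)) 1 * foxL ι s M := by
  induction L with
  | nil => simp [foxL, ← FreeGroup.one_eq_mk, ← one_def]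
  | cons a L ih =>
    rw [List.cons_append, foxL, foxL, ih, mul_add, add_assoc, ← mul_assoc, single_mul_single,
      one_mul, ← map_mul, ← mk_cons]

lemma foxL_step (ι : FreeGroup S →* G) (s : S) {L M : List (S × Bool)}
    (h : FreeGroup.Red.Step L M) : foxL (K := K) ι s L = foxL ι s M := by
  cases h with
  | @not L₁ L₂ x b =>
    have hmk : (FreeGroup.mk [(x, b), (x, !b)] : FreeGroup S) = 1 := by
      rw [FreeGroup.one_eq_mk]
      exact Quot.sound (FreeGroup.Red.Step.not (L₁ := []) (L₂ := []))
    have hpair : foxL (K := K) ι s [(x, b), (x, !b)] = 0 := by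
      have hinv : FreeGroup.mk [(x, b)] * FreeGroup.mk [(x, !b)] = (1 : FreeGroup S) := by
        rw [FreeGroup.mul_mk]; exact hmk
      simp only [foxL, eLetter, mul_zero, add_zero]
      by_cases hx : x = s
      · subst hx
        cases b <;> simp only [↓reduceIte, Bool.not_true, Bool.not_false, mul_one,
          Bool.false_eq_true, mul_neg, single_mul_single, ← map_mul] at hinv ⊢
        · abel
        · rw [hinv, map_one, ← one_def]; abel
      · simp [hx]
    have : L₁ ++ (x, b) :: (x, !b) :: L₂ = (L₁ ++ [(x, b), (x, !b)]) ++ L₂ := by simp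
    rw [this, foxL_append, foxL_append, hpair, mul_zero, add_zero, foxL_append]
    congr 3
    rw [← FreeGroup.mul_mk, hmk, mul_one]

/-- The Fox derivative in `s` on the free group. -/
noncomputable def fox (ι : FreeGroup S →* G) (s : S) : FreeGroup S → K[G] :=
  Quot.lift (foxL ι s) fun _ _ h => foxL_step ι s h

lemma fox_mul (ι : FreeGroup S →* G) (s : S) (u v : FreeGroup S) :
    fox (K := K) ι s (u * v) = fox ι s u + single (ι u) 1 * fox ι s v := by
  induction u using Quot.inductionOn with
  | h L =>
    induction v using Quot.inductionOn with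
    | h M => exact foxL_append ι s L M

lemma fox_toWord (ι : FreeGroup S →* G) (s : S) (u : FreeGroup S) :
    fox (K := K) ι s u = foxL ι s u.toWord := by
  conv_lhs => rw [← FreeGroup.mk_toWord (x := u)]
  rfl

/-- The shifting element: one, or the generator `s`. -/
def shiftElem (s : S) (b : Bool) : FreeGroup S := if b then 1 else FreeGroup.mk [(s, true)]

/-- The end point of the edge of the letter `a` after the word `A`, seen from the side `b`. -/
def endPt (b : Bool) (A : List (S × Bool)) (a : S × Bool) : List (S × Bool) :=
  if a.2 = b then A else A ++ [a]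

lemma foxL_snoc_shift (ι : FreeGroup S →* G) (s : S) (b : Bool) (A : List (S × Bool))
    (a : S × Bool) :
    foxL (K := K) ι s (A ++ [a]) * single (ι (shiftElem s b)) 1 =
      foxL ι s A * single (ι (shiftElem s b)) 1 +
        (if a.1 = s then single (ι (FreeGroup.mk (endPt b A a))) (if a.2 then 1 else -1)
          else 0) := by
  rw [foxL_append, add_mul]
  congr 1
  simp only [foxL, mul_zero, add_zero, eLetter]
  rcases a with ⟨t, c⟩
  by_cases ht : t = s
  · subst ht
    cases b <;> cases c <;>
      simp only [↓reduceIte, Bool.false_eq_true, Bool.true_eq_false, shiftElem, endPt, mul_one,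
        mul_neg, map_one, ← one_def, single_mul_single, ← map_mul,
        FreeGroup.mul_mk, ← single_neg]
    all_goals congr 2
    -- the case of a cancelling pair
    · have h : FreeGroup.Red.Step (A ++ [(t, false), (t, !false)]) (A ++ []) :=
        FreeGroup.Red.Step.not
      rw [List.append_assoc]
      show (FreeGroup.mk (A ++ [(t, false), (t, true)]) : FreeGroup S) = FreeGroup.mk A
      rw [List.append_nil] at h
      exact Quot.sound h
  · rw [if_neg (by exact ht), if_neg (by exact ht), mul_zero, zero_mul]

section Ext

variable (π : G →* Q) (ι : FreeGroup S →* G) (hπ : Function.Surjective π)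
variable (hι : Function.Injective ι) (hr : ι.range = π.ker)

include hπ hι hr in
omit [DecidableEq S] in
lemma exists_coord : ∃ (sec : Q → G) (part : G → FreeGroup S),
    (∀ q, π (sec q) = q) ∧ (∀ g, sec (π g) * ι (part g) = g) ∧
      ∀ q w, part (sec q * ι w) = w := by
  have hker : ∀ g, (Function.surjInv hπ (π g))⁻¹ * g ∈ ι.range := by
    intro g
    rw [hr, MonoidHom.mem_ker, map_mul, map_inv, Function.surjInv_eq hπ, inv_mul_cancel]
  choose part hpart using hker
  refine ⟨Function.surjInv hπ, part, Function.surjInv_eq hπ, fun g => ?_, fun q w => ?_⟩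
  · rw [hpart, mul_inv_cancel_left]
  · apply hι
    have hw : π (ι w) = 1 := by
      rw [← MonoidHom.mem_ker, ← hr]; exact ⟨w, rfl⟩
    rw [hpart, map_mul, hw, mul_one, Function.surjInv_eq hπ, inv_mul_cancel_left]

/-- Extension of the Fox derivative to the group algebra of `G`, shifted. -/
noncomputable def dExt (sec : Q → G) (part : G → FreeGroup S) (s : S) (b : Bool) :
    K[G] →+ K[G] :=
  (Finsupp.liftAddHom fun g =>
    { toFun := fun r : K => single (sec (π g)) r * (fox ι s (part g) * single (ι (shiftElem s b)) 1)
      map_zero' := by simp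
      map_add' := fun r r' => by rw [single_add, add_mul] }).comp
    coeffAddEquiv.toAddMonoidHom

lemma dExt_single (sec : Q → G) (part : G → FreeGroup S) (s : S) (b : Bool) (g : G) (r : K) :
    dExt π ι sec part s b (single g r) =
      single (sec (π g)) r * (fox ι s (part g) * single (ι (shiftElem s b)) 1) := by
  simp [dExt]

end Ext

end Vale.Agent.GroupAlg
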