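import Vale.Agent.GroupAlg.Descent

/-!
Extensions with free kernel: zero divisors and stable finiteness of group algebras.
-/

open MonoidAlgebra MulOpposite

namespace Vale.Agent.GroupAlg

section Kernel

variable {G : Type*} [Group G]

/-- Free kernel data attached to a normal subgroup that is a free group. -/
lemma freeKernel_of_isFree (N : Subgroup G) [N.Normal] [IsFreeGroup N] :
    ∃ ι : FreeGroup (IsFreeGroup.Generators N) →* G, FreeKernel (QuotientGroup.mk' N) ι := by
  refine ⟨N.subtype.comp (IsFreeGroup.toFreeGroup N).symm.toMonoidHom,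
    QuotientGroup.mk'_surjective N, ?_, ?_⟩
  · exact N.subtype_injective.comp (IsFreeGroup.toFreeGroup N).symm.injective
  · rw [MonoidHom.range_comp, MonoidHom.range_eq_top.2 (IsFreeGroup.toFreeGroup N).symm.surjective,
      ← MonoidHom.range_eq_map, Subgroup.range_subtype, QuotientGroup.ker_mk']

end Kernel

variable {K : Type*} [Ring K] {G Q : Type*} [Group G] [Group Q] {S : Type*}
variable {π : G →* Q} {ι : FreeGroup S →* G}

/-- A nonzero divisor modulo the kernel is not a left zero divisor. -/
theorem eq_zero_of_left (h : FreeKernel π ι) [NoZeroDivisors (MonoidAlgebra K Q)]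
    {a b : K[G]} (ha : psi π a ≠ 0) (hab : a * b = 0) : b = 0 := by
  classical
  have hψ : ∀ v : Unit → K[G], a * v () = 0 → ∀ j, psi π (v j) = 0 := by
    intro v hv j
    have h0 := congrArg (psi π) hv
    rw [map_mul, map_zero] at h0
    exact (mul_eq_zero.1 h0).resolve_left ha
  exact congrFun (descent h (fun v : Unit → K[G] => a * v () = 0)
    (fun C v hv s b => by
      show a * C.der s b (v ()) = 0
      rw [← der_mul C s b a (v ()) (hψ v hv ()), hv, map_zero]) hψ (fun _ => b) hab) ()

/-- The group algebra anti-isomorphism given by inversion. -/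
noncomputable def antipode (K : Type*) [Ring K] (G : Type*) [Group G] :
    K[G]ᵐᵒᵖ ≃+* Kᵐᵒᵖ[G] :=
  MonoidAlgebra.opRingEquiv.trans (mapDomainRingEquiv Kᵐᵒᵖ (MulEquiv.inv' G).symm)

lemma antipode_single (g : G) (r : K) :
    antipode K G (op (single g r)) = single g⁻¹ (op r) := by
  show mapDomainRingEquiv Kᵐᵒᵖ (MulEquiv.inv' G).symm (MonoidAlgebra.opRingEquiv (op (single g r))) = _
  rw [opRingEquiv_single]
  simp [mapDomainRingEquiv, mapDomainRingHom]

lemma psi_antipode (x : K[G]) :
    psi π (antipode K G (op x)) = antipode K Q (op (psi π x)) := by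
  induction x using MonoidAlgebra.induction_linear with
  | zero => simp
  | add x y hx hy => simp only [op_add, map_add, hx, hy]
  | single g r => rw [psi_single, antipode_single, antipode_single, psi_single, map_inv]

/-- A nonzero divisor modulo the kernel is not a right zero divisor. -/
theorem eq_zero_of_right (h : FreeKernel π ι) [NoZeroDivisors (MonoidAlgebra K Q)]
    {a b : K[G]} (hb : psi π b ≠ 0) (hab : a * b = 0) : a = 0 := by
  have : NoZeroDivisors (MonoidAlgebra Kᵐᵒᵖ Q) :=
    MulEquiv.noZeroDivisors (MonoidAlgebra K Q)ᵐᵒᵖ (antipode K Q).symm.toMulEquiv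
  have h1 : antipode K G (op b) * antipode K G (op a) = 0 := by
    rw [← map_mul, ← op_mul, hab, op_zero, map_zero]
  have h2 : psi π (antipode K G (op b)) ≠ 0 := by
    rw [psi_antipode]
    simpa using hb
  simpa using eq_zero_of_left h h2 h1

/-- The absence of zero divisors lifts through extensions with free kernel. -/
theorem noZeroDivisors_of_freeKernel (h : FreeKernel π ι) [NoZeroDivisors (MonoidAlgebra K Q)] :
    NoZeroDivisors (MonoidAlgebra K G) := by
  classical
  refine ⟨fun {a b} hab => ?_⟩
  by_contra hne
  push Not at hne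
  obtain ⟨ha, hb⟩ := hne
  have hψ : ∀ v : Unit → K[G], a * v () = 0 → ∀ j, psi π (v j) = 0 := fun v hv j => by
    by_contra hne
    exact ha (eq_zero_of_right h hne hv)
  refine hb (congrFun (descent h (fun v : Unit → K[G] => a * v () = 0)
    (fun C v hv s c => ?_) hψ (fun _ => b) hab) ())
  show a * C.der s c (v ()) = 0
  rw [← der_mul C s c a (v ()) (hψ v hv ()), hv, map_zero]

/-- Lifting of stable finiteness along a map that kills no nonzero idempotent matrix. -/
theorem stablyFinite_of_idempotent {R R' : Type*} [Ring R] [Ring R'] (f : R →+* R')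
    [IsStablyFiniteRing R']
    (hf : ∀ n (e : Matrix (Fin n) (Fin n) R), e * e = e → e.map f = 0 → e = 0) :
    IsStablyFiniteRing R := by
  refine ⟨fun n => ⟨fun {a b} hab => ?_⟩⟩
  have h1 : b.map f * a.map f = 1 := by
    apply mul_eq_one_symm
    rw [← Matrix.map_mul, hab, Matrix.map_one _ f.map_zero f.map_one]
  have h2 : (1 - b * a) * (1 - b * a) = 1 - b * a := by
    have : b * a * (b * a) = b * a := by rw [mul_assoc, ← mul_assoc a, hab, one_mul]
    rw [sub_mul, mul_sub, mul_sub, this]; simp
  have h3 : (1 - b * a).map f = 0 := by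
    rw [Matrix.map_sub _ (fun x y => map_sub f x y), Matrix.map_mul, h1,
      Matrix.map_one _ f.map_zero f.map_one, sub_self]
  exact (sub_eq_zero.1 (hf n _ h2 h3)).symm

/-- An idempotent matrix in the kernel of a free kernel extension vanishes. -/
theorem idempotent_eq_zero_of_freeKernel (h : FreeKernel π ι) {n : ℕ}
    (e : Matrix (Fin n) (Fin n) K[G]) (he : e * e = e) (hmap : e.map (psi π) = 0) : e = 0 := by
  classical
  have hψ : ∀ v : Fin n → K[G], e.mulVec v = v → ∀ j, psi π (v j) = 0 := fun v hv j => by
    rw [← hv, RingHom.map_mulVec, hmap]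
    simp
  ext i k : 1
  refine congrFun (descent h (fun v : Fin n → K[G] => e.mulVec v = v) (fun C v hv s b => ?_) hψ
    (fun i => e i k) ?_) i
  · funext j
    conv_rhs => rw [← hv]
    simp only [Matrix.mulVec, dotProduct, map_sum]
    exact Finset.sum_congr rfl fun i _ => (der_mul C s b _ _ (hψ v hv i)).symm
  · funext j
    have := congrFun (congrFun he j) k
    simpa [Matrix.mulVec, dotProduct, Matrix.mul_apply] using this

/-- Stable finiteness lifts through extensions with free kernel. -/
theorem stablyFinite_of_freeKernel (h : FreeKernel π ι)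
    [IsStablyFiniteRing (MonoidAlgebra K Q)] : IsStablyFiniteRing (MonoidAlgebra K G) :=
  stablyFinite_of_idempotent (psi π) fun _ e he hmap => idempotent_eq_zero_of_freeKernel h e he hmap

end Vale.Agent.GroupAlg
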