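import Vale.Agent.GroupAlg.ResidualP
import Vale.Agent.GroupAlg.LocInd

/-!
Stable finiteness lifts through locally indicable kernels.
-/

open MonoidAlgebra

namespace Vale.Agent.GroupAlg

universe u v

variable {K : Type v} [Ring K] {G : Type u} [Group G]

/-- An idempotent matrix in the kernel of `K[G] → K[G/N]`, `N` locally indicable, vanishes. -/
theorem idempotent_eq_zero_of_locInd (N : Subgroup G) [N.Normal] (hN : LocallyIndicable N)
    {n : ℕ} (e : Matrix (Fin n) (Fin n) K[G]) (he : e * e = e)
    (hmap : e.map (psi (QuotientGroup.mk' N)) = 0) : e = 0 := by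
  classical
  ext i k g
  rw [Matrix.zero_apply, coeff_zero, Finsupp.zero_apply]
  let π : G → G ⧸ N := QuotientGroup.mk
  let F : Finset (G ⧸ N) := insert (π g)
    (Finset.univ.biUnion fun j : Fin n => (e j k).coeff.support.image π)
  have hF : ∀ j x, (e j k).coeff x ≠ 0 → (x : G ⧸ N) ∈ F := fun j x hx =>
    Finset.mem_insert_of_mem (Finset.mem_biUnion.2
      ⟨j, Finset.mem_univ _, Finset.mem_image_of_mem π (Finsupp.mem_support_iff.2 hx)⟩)
  let M : Matrix (Fin n × F) (Fin n × F) K[N] :=
    fun a c => comp' N (MonoidHom.id N) a.2 (e a.1 c.1 * single (c.2 : G ⧸ N).out 1)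
  let w : Fin n × F → K[N] := fun a => comp' N (MonoidHom.id N) a.2 (e a.1 k)
  have hw : M.mulVec w = w := by
    funext a
    have h1 : e a.1 k = ∑ j, e a.1 j * e j k := by
      rw [← Matrix.mul_apply, he]
    show ∑ c, M a c * w c = comp' N (MonoidHom.id N) a.2 (e a.1 k)
    rw [h1, map_sum, Fintype.sum_prod_type]
    refine Finset.sum_congr rfl fun j _ => ?_
    rw [comp'_mul N _ _ _ _ F (hF j), ← Finset.sum_coe_sort F]
  have haugM : ∀ a c, aug N (M a c) = 0 := by
    intro a c
    have hz : ∀ x : K[N], mapDomainRingHom K (1 : N →* Unit) x = 0 → aug N x = 0 := by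
      intro x hx
      have h2 : aug N x = (mapDomainRingHom K (1 : N →* Unit) x).coeff 1 := by
        clear hx
        induction x using MonoidAlgebra.induction_linear with
        | zero => simp
        | add x y hx hy =>
          rw [map_add (aug N), map_add (mapDomainRingHom K (1 : N →* Unit)), hx, hy, coeff_add,
            Finsupp.add_apply]
        | single y r => simp [aug_single, mapDomainRingHom]
      rw [h2, hx]
      simp
    apply hz
    have h0 : psi (QuotientGroup.mk' N) (e a.1 c.1) = 0 := congrFun (congrFun hmap a.1) c.1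
    show mapDomainRingHom K (1 : N →* Unit)
      (comp' N (MonoidHom.id N) a.2 (e a.1 c.1 * single (c.2 : G ⧸ N).out 1)) = 0
    rw [augmentation_comp', map_mul, h0, zero_mul, coeff_zero, Finsupp.zero_apply, single_zero]
  have hzero : w = 0 := by
    refine eq_zero_of_aug_injective hN _ (Fin n × F) (Fin n × F)
      (fun a c => (if a = c then 1 else 0) - M a c) w (fun s hs => ?_) (fun a => ?_) le_rfl
    · funext a
      simpa [haugM, apply_ite (aug N), ite_mul] using hs a
    · simp only [sub_mul, ite_mul, one_mul, zero_mul, Finset.sum_sub_distrib,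
        Finset.sum_ite_eq, Finset.mem_univ, if_true]
      rw [sub_eq_zero]
      exact (congrFun hw a).symm
  have h0 : comp' N (MonoidHom.id N) (π g) (e i k) = 0 :=
    congrFun hzero (i, ⟨π g, Finset.mem_insert_self _ _⟩)
  have hc : (comp' N (MonoidHom.id N) (π g) (e i k)).coeff (npart N g) = (e i k).coeff g := by
    conv_lhs => rw [← sum_coeff_single (e i k), Finsupp.sum, map_sum, coeff_sum,
      Finsupp.finsetSum_apply]
    rw [Finset.sum_eq_single g]
    · rw [comp'_single, if_pos rfl, coeff_single]
      exact Finsupp.single_eq_same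
    · intro g' _ hne
      rw [comp'_single]
      split_ifs with hq
      · rw [coeff_single, Finsupp.single_apply, if_neg]
        intro heq
        apply hne
        simp only [MonoidHom.id_apply] at heq
        rw [← out_mul_npart N g', ← out_mul_npart N g, hq, heq]
      · simp
    · intro hg
      rw [Finsupp.notMem_support_iff.1 hg]
      simp
  rw [h0] at hc
  simpa using hc.symm

/-- Stable finiteness lifts through extensions with locally indicable kernel. -/
theorem stablyFinite_of_locInd (N : Subgroup G) [N.Normal] (hN : LocallyIndicable N)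
    [IsStablyFiniteRing (MonoidAlgebra K (G ⧸ N))] : IsStablyFiniteRing (MonoidAlgebra K G) :=
  stablyFinite_of_idempotent (psi (QuotientGroup.mk' N))
    fun _ e he hmap => idempotent_eq_zero_of_locInd N hN e he hmap

/-- Free groups are locally indicable. -/
theorem locallyIndicable_of_isFree {N : Type u} [Group N] [IsFreeGroup N] :
    LocallyIndicable N := by
  classical
  intro H _ hne
  have hg : Nonempty (IsFreeGroup.Generators H) := by
    by_contra hE
    rw [not_nonempty_iff] at hE
    apply hne
    rw [Subgroup.eq_bot_iff_forall]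
    intro x hx
    have h : IsFreeGroup.toFreeGroup H ⟨x, hx⟩ = 1 := Subsingleton.elim _ _
    have := (IsFreeGroup.toFreeGroup H).injective (h.trans (map_one _).symm)
    exact congrArg Subtype.val this
  refine ⟨(FreeGroup.lift fun _ => Multiplicative.ofAdd (1 : ℤ)).comp
    (IsFreeGroup.toFreeGroup H).toMonoidHom, fun z => ?_⟩
  refine ⟨(IsFreeGroup.toFreeGroup H).symm (FreeGroup.of hg.some ^ Multiplicative.toAdd z), ?_⟩
  simp [← ofAdd_zsmul]

/-- Torsion-free abelian groups are locally indicable. -/
theorem locallyIndicable_of_comm {N : Type u} [Group N] (hc : ∀ a b : N, a * b = b * a)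
    [IsMulTorsionFree N] : LocallyIndicable N := by
  classical
  intro H hfg hne
  let _ : CommGroup H := { (inferInstance : Group H) with mul_comm := fun a b => Subtype.ext (hc a b) }
  have htf : IsMulTorsionFree H := inferInstance
  have hG : Group.FG H := (Group.fg_iff_subgroup_fg H).2 hfg
  have : AddMonoid.FG (Additive H) := by
    rw [← AddGroup.fg_iff_addMonoid_fg]; exact GroupFG.iff_add_fg.1 hG
  have : Module.Finite ℤ (Additive H) := Module.Finite.iff_addGroup_fg.2 ((AddGroup.fg_iff_addMonoid_fg (G := Additive H)).2 this)
  have : Module.IsTorsionFree ℤ (Additive H) := inferInstance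
  have : Module.Free ℤ (Additive H) := inferInstance
  let b := Module.Free.chooseBasis ℤ (Additive H)
  have hnon : Nonempty (Module.Free.ChooseBasisIndex ℤ (Additive H)) := by
    by_contra hE
    rw [not_nonempty_iff] at hE
    apply hne
    rw [Subgroup.eq_bot_iff_forall]
    intro x hx
    have h : Additive.ofMul (⟨x, hx⟩ : H) = 0 := b.repr.injective (Subsingleton.elim _ _)
    exact congrArg Subtype.val (ofMul_eq_zero.1 h)
  refine ⟨AddMonoidHom.toMultiplicativeRight (b.coord hnon.some).toAddMonoidHom, fun z => ?_⟩
  refine ⟨Additive.toMul ((Multiplicative.toAdd z) • b hnon.some), ?_⟩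
  simp

end Vale.Agent.GroupAlg
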